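import Vale.Agent.P141.H97b.BirthZ

/-!
# P141, line W, end lemma (E-FR): births and drops for moving kernels and for families

`A k` is the kernel at the scale `k`; the component `i = (r, x', m')` is a frame of `A r`.
`al k x1 n m` : the point `x1` and the square `(k; n, m)` are alive (closed upwards).
`rs k n m` : birth squares.

* `winM`: the active set on a cell of one variable at the fibre `(x0, x1)`;
* `birthBM_le`, `birthAM_le`, `dropBM_le`, `dropAM_le`: one plane, summed over `x1`;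
* `winF`, `dropBF_le`, `dropAF_le`: finite families of planes.
-/

namespace Vale.Agent.P141.H97b

open Finset Vale.Agent.P141.PL Vale.Agent.P141.PL.H317
open Vale.Agent.P141.PL.H315 (avg)
open Vale.Agent.P141.H443 hiding us_of_reset fa_row fb_col
open Vale.Agent.P141.H337

noncomputable section

section window

variable {ι : Type*}

open Classical in
/-- **the active set on a cell of one variable** -/
def winM (act : ℕ → ℤ → ℤ → Finset ι) (al : ℕ → ℤ → ℤ → ℤ → Prop) (o x0 x1 : ℤ) (k : ℕ)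
    (b : ℤ) : Finset ι :=
  ((wn o x0 x1 k b).filter fun n => al k x1 n b).biUnion fun n => act k n b

theorem mem_winM {act : ℕ → ℤ → ℤ → Finset ι} {al : ℕ → ℤ → ℤ → ℤ → Prop} {o x0 x1 : ℤ} {k : ℕ}
    {b : ℤ} {i : ι} : i ∈ winM act al o x0 x1 k b ↔
      ∃ n ∈ wn o x0 x1 k b, al k x1 n b ∧ i ∈ act k n b := by
  classical
  unfold winM
  simp only [mem_biUnion, mem_filter, and_assoc]

theorem act_sub_winM {act : ℕ → ℤ → ℤ → Finset ι} {al : ℕ → ℤ → ℤ → ℤ → Prop} {o x0 x1 : ℤ}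
    {k : ℕ} {b n : ℤ} (hn : n ∈ wn o x0 x1 k b) (ha : al k x1 n b) :
    act k n b ⊆ winM act al o x0 x1 k b := fun _ hi => mem_winM.2 ⟨n, hn, ha, hi⟩

/-- the exactly matched square -/
theorem act_mt_sub_winM {act : ℕ → ℤ → ℤ → Finset ι} {al : ℕ → ℤ → ℤ → ℤ → Prop}
    {o x0 x1 : ℤ} {k : ℕ} {b : ℤ} (ha : al k x1 (mt o x0 x1 k b) b) :
    act k (mt o x0 x1 k b) b ⊆ winM act al o x0 x1 k b := act_sub_winM (self_mem_wn _ _ _ _ _) ha

/-- the sum over `x1` of the weights in the windows of a square -/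
theorem sum_wnM_le {P : ℤ → Prop} {o x0 : ℤ} {k : ℕ} {n b : ℤ} {w : ℤ → ℝ}
    (hw : ∀ x, 0 ≤ w x) {D : ℝ}
    (hd : ∀ j, ∀ T ⊆ iv k j, (∀ x1 ∈ T, P x1) → ∑ x1 ∈ T, w x1 ≤ D * 2 ^ k) (I : Finset ℤ)
    [∀ x1 : ℤ, Decidable (n ∈ wn o x0 x1 k b ∧ P x1)] :
    ∑ x1 ∈ I, (if n ∈ wn o x0 x1 k b ∧ P x1 then w x1 else 0) ≤ 17 * D * 2 ^ k := by
  classical
  rw [← sum_filter]
  have h1 : (I.filter fun x1 => n ∈ wn o x0 x1 k b ∧ P x1) ⊆
      (jw o x0 k n b).biUnion fun j => (iv k j).filter P := by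
    intro x1 hx
    rw [mem_filter] at hx
    rw [mem_biUnion]
    exact ⟨ix k x1, mem_jw hx.2.1, mem_filter.2 ⟨self_mem_iv k x1, hx.2.2⟩⟩
  refine (sum_le_sum_of_subset_of_nonneg h1 fun x _ _ => hw x).trans ?_
  refine (sum_bU_le _ _ hw).trans ?_
  refine (sum_le_card_nsmul _ _ (D * 2 ^ k) fun j _ => hd j _ (filter_subset _ _)
    fun x1 h => (mem_filter.1 h).2).trans ?_
  rw [nsmul_eq_mul, card_jw]
  push_cast
  linarith

variable {act : ℕ → ℤ → ℤ → Finset ι} {al : ℕ → ℤ → ℤ → ℤ → Prop}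
  {o x0 : ℤ} {d : ℤ → ℤ → ℝ} {f : ι → ℤ → ℝ} {D : ℝ}

open Classical in
/-- the components of one square, summed over `x1` -/
theorem sum_actM_le {k : ℕ} {n b : ℤ} (S : Finset ι)
    (hd : ∀ j, ∀ x ∈ iv k b, ∀ T ⊆ iv k j, (∀ x1 ∈ T, al k x1 n b) →
      ∑ x1 ∈ T, d x1 x ^ 2 ≤ D * 2 ^ k) (I : Finset ℤ) :
    ∑ x1 ∈ I, (if n ∈ wn o x0 x1 k b ∧ al k x1 n b then
      ms (cz d f x1) S (ivm k b) else 0) ≤
      17 * D * ∑ i ∈ S, ∑ x ∈ iv k b, f i x ^ 2 := by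
  have h1 : ∀ x1, (if n ∈ wn o x0 x1 k b ∧ al k x1 n b then
      ms (cz d f x1) S (ivm k b) else 0) = ∑ i ∈ S, (2 ^ k : ℝ)⁻¹ * ∑ x ∈ iv k b,
        (if n ∈ wn o x0 x1 k b ∧ al k x1 n b then d x1 x ^ 2 else 0) * f i x ^ 2 := by
    intro x1
    split_ifs with h
    · unfold ms avg cz
      refine sum_congr rfl fun i _ => ?_
      rw [ivm_eq, card_iv]
      push_cast
      congr 1
      exact sum_congr rfl fun x _ => by ring
    · simp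
  rw [sum_congr rfl fun x1 _ => h1 x1, sum_comm, mul_sum]
  refine sum_le_sum fun i _ => ?_
  rw [← mul_sum, sum_comm]
  have h2 : ∑ x ∈ iv k b, ∑ x1 ∈ I,
      (if n ∈ wn o x0 x1 k b ∧ al k x1 n b then d x1 x ^ 2 else 0) * f i x ^ 2 ≤
      ∑ x ∈ iv k b, 17 * D * 2 ^ k * f i x ^ 2 := by
    refine sum_le_sum fun x hx => ?_
    rw [← sum_mul]
    refine mul_le_mul_of_nonneg_right ?_ (sq_nonneg _)
    exact sum_wnM_le (P := fun x1 => al k x1 n b) (fun _ => sq_nonneg _) (fun j => hd j x hx) I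
  calc (2 ^ k : ℝ)⁻¹ * _ ≤ (2 ^ k : ℝ)⁻¹ * ∑ x ∈ iv k b, 17 * D * 2 ^ k * f i x ^ 2 :=
        mul_le_mul_of_nonneg_left h2 (by positivity)
    _ = 17 * D * ∑ x ∈ iv k b, f i x ^ 2 := by
        rw [← mul_sum]
        field_simp

open Classical in
/-- a set of components covered by sets `B n`, `n` in the window -/
theorem ms_coverM (c : ι → ℤ → ℝ) {x1 : ℤ} {k : ℕ} {b : ℤ} {S : Finset ι} {N : Finset ℤ}
    (B : ℤ → Finset ι)
    (hS : ∀ i ∈ S, ∃ n ∈ wn o x0 x1 k b, al k x1 n b ∧ n ∈ N ∧ i ∈ B n) (J : Finset ℤ) :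
    ms c S J ≤ ∑ n ∈ N, if n ∈ wn o x0 x1 k b ∧ al k x1 n b then ms c (B n) J else 0 := by
  have hp : ∀ i, 0 ≤ avg J fun x => c i x ^ 2 := fun i =>
    Vale.Agent.P141.PL.H315.avg_nonneg fun _ _ => sq_nonneg _
  rw [← sum_filter]
  have h1 : S ⊆ (N.filter fun n => n ∈ wn o x0 x1 k b ∧ al k x1 n b).biUnion B := by
    intro i hi
    obtain ⟨n, hn, ha, hP, hin⟩ := hS i hi
    exact mem_biUnion.2 ⟨n, mem_filter.2 ⟨hP, hn, ha⟩, hin⟩
  unfold ms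
  exact (sum_le_sum_of_subset_of_nonneg h1 fun i _ _ => hp i).trans (sum_bU_le _ _ hp)

/-- **The mass of a set of components at a cell, summed over `x1`.** -/
theorem sum_ms_le {k : ℕ} {b : ℤ} {N : Finset ℤ} (B : ℤ → Finset ι) (S : ℤ → Finset ι)
    (hS : ∀ x1, ∀ i ∈ S x1, ∃ n ∈ wn o x0 x1 k b, al k x1 n b ∧ n ∈ N ∧ i ∈ B n)
    (hd : ∀ j, ∀ n ∈ N, ∀ x ∈ iv k b, ∀ T ⊆ iv k j, (∀ x1 ∈ T, al k x1 n b) →
      ∑ x1 ∈ T, d x1 x ^ 2 ≤ D * 2 ^ k) (I : Finset ℤ) :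
    ∑ x1 ∈ I, ms (cz d f x1) (S x1) (ivm k b) ≤
      17 * D * ∑ n ∈ N, ∑ i ∈ B n, ∑ x ∈ iv k b, f i x ^ 2 := by
  classical
  refine (sum_le_sum fun x1 _ => ms_coverM (al := al) (o := o) (x0 := x0) (cz d f x1) B
    (hS x1) _).trans ?_
  rw [sum_comm, mul_sum]
  exact sum_le_sum fun n hn => sum_actM_le _ (fun j => hd j n hn) I

end window

/-! ### The rules of a plane process -/

section rules

variable {ι : Type*}

/-- **The rules of a plane process**: `act` the active components, `cs` the components of a square,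
`rk` the scale of a component, `rs` the birth squares, `al` the alive pairs (point `x1`, square). -/
structure PPr (act cs : ℕ → ℤ → ℤ → Finset ι) (rk : ι → ℕ) (rs : ℕ → ℤ → ℤ → Prop)
    (al : ℕ → ℤ → ℤ → ℤ → Prop) (K : ℕ) (R S : ℤ) : Prop where
  le : ∀ k ≤ K, ∀ n m, ∀ i ∈ act k n m, k ≤ rk i ∧ rk i ≤ K
  born : ∀ k ≤ K, ∀ n m, ∀ i ∈ act k n m, rk i = k → rs k n m ∧ i ∈ cs k n m
  up : ∀ k < K, ∀ n m, ∀ i ∈ act k n m, k < rk i → i ∈ act (k + 1) (n / 2) (m / 2)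
  alup : ∀ k < K, ∀ x1 n m, al k x1 n m → al (k + 1) x1 (n / 2) (m / 2)
  root : ∀ k ≤ K, ∀ x1 n m, al k x1 n m → n ∈ iv (K - k) R ∧ m ∈ iv (K - k) S

variable {act cs : ℕ → ℤ → ℤ → Finset ι} {rk : ι → ℕ} {rs : ℕ → ℤ → ℤ → Prop}
  {al : ℕ → ℤ → ℤ → ℤ → Prop} {K : ℕ} {R S : ℤ}

/-- the exchange of the two coordinates of the plane -/
theorem PPr.swap (h : PPr act cs rk rs al K R S) :
    PPr (fun k m n => act k n m) (fun k m n => cs k n m) rk (fun k m n => rs k n m)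
      (fun k x1 m n => al k x1 n m) K S R where
  le k hk n m := h.le k hk m n
  born k hk n m := h.born k hk m n
  up k hk n m := h.up k hk m n
  alup k hk x1 n m := h.alup k hk x1 m n
  root k hk x1 n m hl := (h.root k hk x1 m n hl).symm

/-- new components are born -/
theorem PPr.birth [DecidableEq ι] (h : PPr act cs rk rs al K R S) {o x0 x1 : ℤ} (ho : |o| ≤ 1)
    {k : ℕ} (hk : k < K) {b : ℤ} {i : ι}
    (hi : i ∈ winM act al o x0 x1 k b \ winM act al o x0 x1 (k + 1) (b / 2)) :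
    ∃ n ∈ wn o x0 x1 k b, al k x1 n b ∧ (n ∈ iv (K - k) R ∧ rs k n b) ∧ i ∈ cs k n b := by
  rw [mem_sdiff] at hi
  obtain ⟨h1, h2⟩ := hi
  obtain ⟨n, hn, ha, hin⟩ := mem_winM.1 h1
  have h3 : rk i = k := by
    by_contra hr
    have h4 := (h.le k hk.le n b i hin).1
    exact h2 (mem_winM.2 ⟨n / 2, wn_up ho hn, h.alup k hk x1 n b ha,
      h.up k hk n b i hin (by omega)⟩)
  obtain ⟨h5, h6⟩ := h.born k hk.le n b i hin h3
  exact ⟨n, hn, ha, ⟨(h.root k hk.le x1 n b ha).1, h5⟩, h6⟩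

theorem PPr.top (h : PPr act cs rk rs al K R S) {o x0 x1 : ℤ} {i : ι}
    (hi : i ∈ winM act al o x0 x1 K S) :
    ∃ n ∈ wn o x0 x1 K S, al K x1 n S ∧ (n ∈ iv (K - K) R ∧ rs K n S) ∧ i ∈ cs K n S := by
  obtain ⟨n, hn, ha, hin⟩ := mem_winM.1 hi
  have h4 := h.le K le_rfl n S i hin
  obtain ⟨h5, h6⟩ := h.born K le_rfl n S i hin (by omega)
  exact ⟨n, hn, ha, ⟨(h.root K le_rfl x1 n S ha).1, h5⟩, h6⟩

theorem rE_swap (rs : ℕ → ℤ → ℤ → Prop) (K : ℕ) (R S : ℤ) (v : ℕ → ℤ → ℤ → ℝ) :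
    rE (fun k m n => rs k n m) K S R (fun k m n => v k n m) = rE rs K R S v := by
  classical
  unfold rE
  exact sum_congr rfl fun k _ => sum_comm

/-- **Root and births, summed over `x1`**, abstract form. -/
theorem PPr.tb_le [DecidableEq ι] (h : PPr act cs rk rs al K R S) {o x0 : ℤ} (ho : |o| ≤ 1)
    {d : ℤ → ℤ → ℝ} (f : ι → ℤ → ℝ) {D : ℝ}
    (hd : ∀ k ≤ K, ∀ j n m, rs k n m → ∀ x ∈ iv k m, ∀ T ⊆ iv k j, (∀ x1 ∈ T, al k x1 n m) →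
      ∑ x1 ∈ T, d x1 x ^ 2 ≤ D * 2 ^ k) (I : Finset ℤ) :
    ∑ x1 ∈ I, tb (cz d f x1) (winM act al o x0 x1) K S ≤
      17 * D * rE rs K R S fun k n m => 2 ^ k * ∑ i ∈ cs k n m, ∑ x ∈ iv k m, f i x ^ 2 := by
  classical
  have key : ∀ k ≤ K, ∀ b, ∀ W : ℤ → Finset ι, (∀ x1, ∀ i ∈ W x1, ∃ n ∈ wn o x0 x1 k b,
      al k x1 n b ∧ (n ∈ iv (K - k) R ∧ rs k n b) ∧ i ∈ cs k n b) →
      ∑ x1 ∈ I, 2 ^ k * ms (cz d f x1) (W x1) (ivm k b) ≤
      17 * D * ∑ n ∈ iv (K - k) R,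
        if rs k n b then 2 ^ k * ∑ i ∈ cs k n b, ∑ x ∈ iv k b, f i x ^ 2 else 0 := by
    intro k hk b W hW
    have h1 := sum_ms_le (al := al) (o := o) (x0 := x0) (d := d) (f := f) (D := D)
      (N := (iv (K - k) R).filter fun n => rs k n b) (fun n => cs k n b) W
      (fun x1 i hi => by
        obtain ⟨n, h1, h2, h3, h4⟩ := hW x1 i hi
        exact ⟨n, h1, h2, mem_filter.2 h3, h4⟩)
      (fun j n hn x hx T hT hT' => hd k hk j n b (mem_filter.1 hn).2 x hx T hT hT') I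
    rw [← mul_sum]
    refine (mul_le_mul_of_nonneg_left h1 (by positivity)).trans (le_of_eq ?_)
    rw [sum_filter, mul_left_comm, mul_sum]
    congr 1
    refine sum_congr rfl fun n _ => ?_
    split_ifs <;> simp
  have h1 := key K le_rfl S (fun x1 => winM act al o x0 x1 K S) fun x1 i hi => h.top hi
  have h2 : ∑ x1 ∈ I, ∑ k ∈ range K, ∑ b ∈ cel K S k,
      2 ^ k * bm (cz d f x1) (winM act al o x0 x1) k b ≤
      17 * D * ∑ k ∈ range K, ∑ n ∈ iv (K - k) R, ∑ m ∈ iv (K - k) S,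
        if rs k n m then 2 ^ k * ∑ i ∈ cs k n m, ∑ x ∈ iv k m, f i x ^ 2 else 0 := by
    rw [sum_comm, mul_sum]
    refine sum_le_sum fun k hk => ?_
    rw [mem_range] at hk
    rw [sum_comm, sum_comm (s := iv (K - k) R), mul_sum, cel_eq]
    refine sum_le_sum fun b _ => ?_
    exact key k hk.le b (fun x1 => winM act al o x0 x1 k b \ winM act al o x0 x1 (k + 1) (b / 2))
      fun x1 i hi => h.birth ho hk hi
  have h3 : ∑ n ∈ iv (K - K) R, ∑ m ∈ iv (K - K) S,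
      (if rs K n m then 2 ^ K * ∑ i ∈ cs K n m, ∑ x ∈ iv K m, f i x ^ 2 else 0) =
      ∑ n ∈ iv (K - K) R,
        if rs K n S then 2 ^ K * ∑ i ∈ cs K n S, ∑ x ∈ iv K S, f i x ^ 2 else 0 := by
    refine sum_congr rfl fun n _ => ?_
    rw [Nat.sub_self, sum_iv_zero]
  unfold tb rE
  rw [sum_add_distrib, sum_range_succ, h3, mul_add]
  linarith

/-- **The dropped mass, summed over `x1`**, abstract form. -/
theorem PPr.drop_le [DecidableEq ι] (h : PPr act cs rk rs al K R S) {o x0 : ℤ} (ho : |o| ≤ 1)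
    {d : ℤ → ℤ → ℝ} (f : ι → ℤ → ℝ) {D : ℝ}
    (hd : ∀ k ≤ K, ∀ j n m, rs k n m → ∀ x ∈ iv k m, ∀ T ⊆ iv k j, (∀ x1 ∈ T, al k x1 n m) →
      ∑ x1 ∈ T, d x1 x ^ 2 ≤ D * 2 ^ k) (I : Finset ℤ) :
    ∑ x1 ∈ I, ∑ k ∈ range K, ∑ b ∈ cel K S k,
      2 ^ k * dm (cz d f x1) (winM act al o x0 x1) k b ≤
      17 * D * rE rs K R S fun k n m => 2 ^ k * ∑ i ∈ cs k n m, ∑ x ∈ iv k m, f i x ^ 2 :=
  (sum_le_sum fun _ _ => drop_le_tb _ _ K S).trans (h.tb_le ho f hd I)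

end rules

/-! ### The frames of a moving kernel -/

section plane

variable {A : ℕ → ℤ → ℤ → ℝ} {c : ℝ} {act : ℕ → ℤ → ℤ → Finset (ℕ × ℤ × ℤ)}
  {rs : ℕ → ℤ → ℤ → Prop} {al : ℕ → ℤ → ℤ → ℤ → Prop} {K : ℕ} {R S : ℤ}

/-- the first functions of the components of a moving kernel -/
def mcA (A : ℕ → ℤ → ℤ → ℝ) (c : ℝ) (i : ℕ × ℤ × ℤ) (x : ℤ) : ℝ := comA (A i.1) c i x

/-- the second functions of the components of a moving kernel -/
def mcB (A : ℕ → ℤ → ℤ → ℝ) (c : ℝ) (i : ℕ × ℤ × ℤ) (x : ℤ) : ℝ := comB (A i.1) c i x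

theorem sum_mcB (hc : 0 ≤ c) (k : ℕ) (n m : ℤ) :
    2 ^ k * ∑ i ∈ cset k n m, ∑ y ∈ iv k m, mcB A c i y ^ 2 ≤ E2 (iv k n) (iv k m) (A k) := by
  have h1 : ∑ i ∈ cset k n m, ∑ y ∈ iv k m, mcB A c i y ^ 2 =
      ∑ i ∈ cset k n m, ∑ y ∈ iv k m, comB (A k) c i y ^ 2 := by
    refine sum_congr rfl fun i hi => ?_
    unfold mcB
    rw [(mem_cset.1 hi).1]
  rw [h1]
  exact sum_cset_B hc k n m

theorem sum_mcA (hc : 0 ≤ c) (k : ℕ) (n m : ℤ) :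
    2 ^ k * ∑ i ∈ cset k n m, ∑ x ∈ iv k n, mcA A c i x ^ 2 ≤
      c / 2 * E2 (iv k n) (iv k m) (A k) := by
  have h1 : ∑ i ∈ cset k n m, ∑ x ∈ iv k n, mcA A c i x ^ 2 =
      ∑ i ∈ cset k n m, ∑ x ∈ iv k n, comA (A k) c i x ^ 2 := by
    refine sum_congr rfl fun i hi => ?_
    unfold mcA
    rw [(mem_cset.1 hi).1]
  rw [h1]
  exact sum_cset_A hc k n m

/-- **Root and births, second functions** (tree of the third coordinate). -/
theorem birthBM_le (hc : 0 ≤ c) (h : PPr act cset (fun i => i.1) rs al K R S) {o x0 : ℤ}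
    (ho : |o| ≤ 1) {d : ℤ → ℤ → ℝ} {D : ℝ} (hD : 0 ≤ D)
    (hd : ∀ k ≤ K, ∀ j n m, rs k n m → ∀ x ∈ iv k m, ∀ T ⊆ iv k j, (∀ x1 ∈ T, al k x1 n m) →
      ∑ x1 ∈ T, d x1 x ^ 2 ≤ D * 2 ^ k) (I : Finset ℤ) :
    ∑ x1 ∈ I, tb (cz d (mcB A c) x1) (winM act al o x0 x1) K S ≤
      17 * D * rE rs K R S fun k n m => E2 (iv k n) (iv k m) (A k) := by
  refine (h.tb_le ho (mcB A c) hd I).trans ?_
  refine mul_le_mul_of_nonneg_left ?_ (by positivity)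
  exact rE_mono fun k _ n _ m _ _ => sum_mcB hc k n m

/-- **Root and births, first functions** (tree of the second coordinate). -/
theorem birthAM_le (hc : 0 ≤ c) (h : PPr act cset (fun i => i.1) rs al K R S) {o x0 : ℤ}
    (ho : |o| ≤ 1) {d : ℤ → ℤ → ℝ} {D : ℝ} (hD : 0 ≤ D)
    (hd : ∀ k ≤ K, ∀ j n m, rs k n m → ∀ x ∈ iv k n, ∀ T ⊆ iv k j, (∀ x1 ∈ T, al k x1 n m) →
      ∑ x1 ∈ T, d x1 x ^ 2 ≤ D * 2 ^ k) (I : Finset ℤ) :
    ∑ x1 ∈ I, tb (cz d (mcA A c) x1)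
      (winM (fun k m n => act k n m) (fun k x1 m n => al k x1 n m) o x0 x1) K R ≤
      17 * D * (c / 2 * rE rs K R S fun k n m => E2 (iv k n) (iv k m) (A k)) := by
  refine (h.swap.tb_le ho (mcA A c) (fun k hk j m n => hd k hk j n m) I).trans ?_
  refine mul_le_mul_of_nonneg_left ?_ (by positivity)
  rw [rE_swap rs K R S fun k n m => 2 ^ k * ∑ i ∈ cset k n m, ∑ x ∈ iv k n, mcA A c i x ^ 2,
    ← rE_mul]
  exact rE_mono fun k _ n _ m _ _ => sum_mcA hc k n m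

/-- **The dropped mass of the second functions, summed over `x1`.** -/
theorem dropBM_le (hc : 0 ≤ c) (h : PPr act cset (fun i => i.1) rs al K R S) {o x0 : ℤ}
    (ho : |o| ≤ 1) {d : ℤ → ℤ → ℝ} {D : ℝ} (hD : 0 ≤ D)
    (hd : ∀ k ≤ K, ∀ j n m, rs k n m → ∀ x ∈ iv k m, ∀ T ⊆ iv k j, (∀ x1 ∈ T, al k x1 n m) →
      ∑ x1 ∈ T, d x1 x ^ 2 ≤ D * 2 ^ k) (I : Finset ℤ) :
    ∑ x1 ∈ I, ∑ k ∈ range K, ∑ b ∈ cel K S k,
      2 ^ k * dm (cz d (mcB A c) x1) (winM act al o x0 x1) k b ≤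
      17 * D * rE rs K R S fun k n m => E2 (iv k n) (iv k m) (A k) :=
  (sum_le_sum fun _ _ => drop_le_tb _ _ K S).trans (birthBM_le hc h ho hD hd I)

/-- **The dropped mass of the first functions, summed over `x1`.** -/
theorem dropAM_le (hc : 0 ≤ c) (h : PPr act cset (fun i => i.1) rs al K R S) {o x0 : ℤ}
    (ho : |o| ≤ 1) {d : ℤ → ℤ → ℝ} {D : ℝ} (hD : 0 ≤ D)
    (hd : ∀ k ≤ K, ∀ j n m, rs k n m → ∀ x ∈ iv k n, ∀ T ⊆ iv k j, (∀ x1 ∈ T, al k x1 n m) →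
      ∑ x1 ∈ T, d x1 x ^ 2 ≤ D * 2 ^ k) (I : Finset ℤ) :
    ∑ x1 ∈ I, ∑ k ∈ range K, ∑ b ∈ cel K R k, 2 ^ k * dm (cz d (mcA A c) x1)
      (winM (fun k m n => act k n m) (fun k x1 m n => al k x1 n m) o x0 x1) k b ≤
      17 * D * (c / 2 * rE rs K R S fun k n m => E2 (iv k n) (iv k m) (A k)) :=
  (sum_le_sum fun _ _ => drop_le_tb _ _ K R).trans (birthAM_le hc h ho hD hd I)

end plane

/-! ### Finite families of planes -/

section fam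

variable {P Ω ι : Type*} [DecidableEq Ω] [DecidableEq ι]

/-- the active sets of a family: `e p` puts the components of the plane `p` in the index type -/
def uF (Q : Finset P) (e : P → ι ↪ Ω) (W : P → ℕ → ℤ → Finset ι) (k : ℕ) (b : ℤ) : Finset Ω :=
  Q.biUnion fun p => (W p k b).map (e p)

omit [DecidableEq ι] in
theorem mem_uF {Q : Finset P} {e : P → ι ↪ Ω} {W : P → ℕ → ℤ → Finset ι} {k : ℕ} {b : ℤ}
    {x : Ω} : x ∈ uF Q e W k b ↔ ∃ p ∈ Q, ∃ i ∈ W p k b, e p i = x := by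
  unfold uF
  simp only [mem_biUnion, mem_map]

omit [DecidableEq Ω] [DecidableEq ι] in
theorem ms_map (c : Ω → ℤ → ℝ) (e : ι ↪ Ω) (W : Finset ι) (J : Finset ℤ) :
    ms c (W.map e) J = ms (fun i => c (e i)) W J := by
  unfold ms
  rw [sum_map]

omit [DecidableEq ι] in
/-- subadditivity of the mass -/
theorem ms_uF_le (c : Ω → ℤ → ℝ) (Q : Finset P) (e : P → ι ↪ Ω) {T : Finset Ω}
    (W : P → Finset ι) (hT : ∀ x ∈ T, ∃ p ∈ Q, ∃ i ∈ W p, e p i = x) (J : Finset ℤ) :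
    ms c T J ≤ ∑ p ∈ Q, ms (fun i => c (e p i)) (W p) J := by
  have hp : ∀ i, 0 ≤ avg J fun x => c i x ^ 2 := fun i =>
    Vale.Agent.P141.PL.H315.avg_nonneg fun _ _ => sq_nonneg _
  have h1 : T ⊆ Q.biUnion fun p => (W p).map (e p) := by
    intro x hx
    obtain ⟨p, hp, i, hi, he⟩ := hT x hx
    exact mem_biUnion.2 ⟨p, hp, mem_map.2 ⟨i, hi, he⟩⟩
  have h2 : ms c T J ≤ ∑ p ∈ Q, ms c ((W p).map (e p)) J := by
    unfold ms
    exact (sum_le_sum_of_subset_of_nonneg h1 fun i _ _ => hp i).trans (sum_bU_le _ _ hp)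
  refine h2.trans (le_of_eq ?_)
  exact sum_congr rfl fun p _ => ms_map c (e p) (W p) J

/-- **Root and births of a family.** -/
theorem tb_uF_le (c : Ω → ℤ → ℝ) (Q : Finset P) (e : P → ι ↪ Ω) (W : P → ℕ → ℤ → Finset ι)
    (K : ℕ) (b0 : ℤ) :
    tb c (uF Q e W) K b0 ≤ ∑ p ∈ Q, tb (fun i => c (e p i)) (W p) K b0 := by
  unfold tb
  rw [sum_add_distrib]
  refine add_le_add ?_ ?_
  · rw [← mul_sum]
    exact mul_le_mul_of_nonneg_left (ms_uF_le c Q e (fun p => W p K b0)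
      (fun x hx => mem_uF.1 hx) _) (by positivity)
  · rw [sum_comm]
    refine sum_le_sum fun k _ => ?_
    rw [sum_comm]
    refine sum_le_sum fun b _ => ?_
    rw [← mul_sum]
    refine mul_le_mul_of_nonneg_left ?_ (by positivity)
    unfold bm
    refine ms_uF_le c Q e (fun p => W p k b \ W p (k + 1) (b / 2)) (fun x hx => ?_) _
    rw [mem_sdiff] at hx
    obtain ⟨p, hp, i, hi, he⟩ := mem_uF.1 hx.1
    refine ⟨p, hp, i, mem_sdiff.2 ⟨hi, fun hi' => hx.2 (mem_uF.2 ⟨p, hp, i, hi', he⟩)⟩, he⟩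

end fam

section famplane

variable {P Ω : Type*} [DecidableEq Ω] {Q : Finset P} {e : P → (ℕ × ℤ × ℤ) ↪ Ω}
  {A : P → ℕ → ℤ → ℤ → ℝ} {c : P → ℝ} {act : P → ℕ → ℤ → ℤ → Finset (ℕ × ℤ × ℤ)}
  {rs : P → ℕ → ℤ → ℤ → Prop} {al : P → ℕ → ℤ → ℤ → ℤ → Prop} {K : ℕ} {R S : ℤ}
  {cc : ℤ → Ω → ℤ → ℝ} {d : P → ℤ → ℤ → ℝ} {D : P → ℝ} {o x0 : ℤ}

/-- **Root, births of a family, second functions, summed over `x1`.** -/
theorem birthBF_le (hc : ∀ p ∈ Q, 0 ≤ c p)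
    (h : ∀ p ∈ Q, PPr (act p) cset (fun i => i.1) (rs p) (al p) K R S) (ho : |o| ≤ 1)
    (hcc : ∀ p ∈ Q, ∀ x1 i x, cc x1 (e p i) x = d p x1 x * mcB (A p) (c p) i x)
    (hD : ∀ p ∈ Q, 0 ≤ D p)
    (hd : ∀ p ∈ Q, ∀ k ≤ K, ∀ j n m, rs p k n m → ∀ x ∈ iv k m, ∀ T ⊆ iv k j,
      (∀ x1 ∈ T, al p k x1 n m) → ∑ x1 ∈ T, d p x1 x ^ 2 ≤ D p * 2 ^ k) (I : Finset ℤ) :
    ∑ x1 ∈ I, tb (cc x1) (uF Q e fun p => winM (act p) (al p) o x0 x1) K S ≤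
      ∑ p ∈ Q, 17 * D p * rE (rs p) K R S fun k n m => E2 (iv k n) (iv k m) (A p k) := by
  refine (sum_le_sum fun x1 _ => tb_uF_le (cc x1) Q e _ K S).trans ?_
  rw [sum_comm]
  refine sum_le_sum fun p hp => ?_
  refine le_trans (le_of_eq ?_) (birthBM_le (A := A p) (hc p hp) (h p hp) (o := o) (x0 := x0) ho
    (hD p hp) (hd p hp) I)
  refine sum_congr rfl fun x1 _ => ?_
  have e1 : (fun i => cc x1 (e p i)) = cz (d p) (mcB (A p) (c p)) x1 := by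
    funext i x
    exact hcc p hp x1 i x
  rw [e1]

/-- **Root, births of a family, first functions, summed over `x1`.** -/
theorem birthAF_le (hc : ∀ p ∈ Q, 0 ≤ c p)
    (h : ∀ p ∈ Q, PPr (act p) cset (fun i => i.1) (rs p) (al p) K R S) (ho : |o| ≤ 1)
    (hcc : ∀ p ∈ Q, ∀ x1 i x, cc x1 (e p i) x = d p x1 x * mcA (A p) (c p) i x)
    (hD : ∀ p ∈ Q, 0 ≤ D p)
    (hd : ∀ p ∈ Q, ∀ k ≤ K, ∀ j n m, rs p k n m → ∀ x ∈ iv k n, ∀ T ⊆ iv k j,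
      (∀ x1 ∈ T, al p k x1 n m) → ∑ x1 ∈ T, d p x1 x ^ 2 ≤ D p * 2 ^ k) (I : Finset ℤ) :
    ∑ x1 ∈ I, tb (cc x1) (uF Q e fun p => winM (fun k m n => act p k n m)
      (fun k x1 m n => al p k x1 n m) o x0 x1) K R ≤
      ∑ p ∈ Q, 17 * D p * (c p / 2 * rE (rs p) K R S fun k n m =>
        E2 (iv k n) (iv k m) (A p k)) := by
  refine (sum_le_sum fun x1 _ => tb_uF_le (cc x1) Q e _ K R).trans ?_
  rw [sum_comm]
  refine sum_le_sum fun p hp => ?_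
  refine le_trans (le_of_eq ?_) (birthAM_le (A := A p) (hc p hp) (h p hp) (o := o) (x0 := x0) ho
    (hD p hp) (hd p hp) I)
  refine sum_congr rfl fun x1 _ => ?_
  have e1 : (fun i => cc x1 (e p i)) = cz (d p) (mcA (A p) (c p)) x1 := by
    funext i x
    exact hcc p hp x1 i x
  rw [e1]

/-- **The dropped mass of a family, second functions, summed over `x1`.** -/
theorem dropBF_le (hc : ∀ p ∈ Q, 0 ≤ c p)
    (h : ∀ p ∈ Q, PPr (act p) cset (fun i => i.1) (rs p) (al p) K R S) (ho : |o| ≤ 1)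
    (hcc : ∀ p ∈ Q, ∀ x1 i x, cc x1 (e p i) x = d p x1 x * mcB (A p) (c p) i x)
    (hD : ∀ p ∈ Q, 0 ≤ D p)
    (hd : ∀ p ∈ Q, ∀ k ≤ K, ∀ j n m, rs p k n m → ∀ x ∈ iv k m, ∀ T ⊆ iv k j,
      (∀ x1 ∈ T, al p k x1 n m) → ∑ x1 ∈ T, d p x1 x ^ 2 ≤ D p * 2 ^ k) (I : Finset ℤ) :
    ∑ x1 ∈ I, ∑ k ∈ range K, ∑ b ∈ cel K S k,
      2 ^ k * dm (cc x1) (uF Q e fun p => winM (act p) (al p) o x0 x1) k b ≤
      ∑ p ∈ Q, 17 * D p * rE (rs p) K R S fun k n m => E2 (iv k n) (iv k m) (A p k) :=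
  (sum_le_sum fun _ _ => drop_le_tb _ _ K S).trans (birthBF_le hc h ho hcc hD hd I)

/-- **The dropped mass of a family, first functions, summed over `x1`.** -/
theorem dropAF_le (hc : ∀ p ∈ Q, 0 ≤ c p)
    (h : ∀ p ∈ Q, PPr (act p) cset (fun i => i.1) (rs p) (al p) K R S) (ho : |o| ≤ 1)
    (hcc : ∀ p ∈ Q, ∀ x1 i x, cc x1 (e p i) x = d p x1 x * mcA (A p) (c p) i x)
    (hD : ∀ p ∈ Q, 0 ≤ D p)
    (hd : ∀ p ∈ Q, ∀ k ≤ K, ∀ j n m, rs p k n m → ∀ x ∈ iv k n, ∀ T ⊆ iv k j,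
      (∀ x1 ∈ T, al p k x1 n m) → ∑ x1 ∈ T, d p x1 x ^ 2 ≤ D p * 2 ^ k) (I : Finset ℤ) :
    ∑ x1 ∈ I, ∑ k ∈ range K, ∑ b ∈ cel K R k,
      2 ^ k * dm (cc x1) (uF Q e fun p => winM (fun k m n => act p k n m)
        (fun k x1 m n => al p k x1 n m) o x0 x1) k b ≤
      ∑ p ∈ Q, 17 * D p * (c p / 2 * rE (rs p) K R S fun k n m =>
        E2 (iv k n) (iv k m) (A p k)) :=
  (sum_le_sum fun _ _ => drop_le_tb _ _ K R).trans (birthAF_le hc h ho hcc hD hd I)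

end famplane

end

end Vale.Agent.P141.H97b
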