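import Vale.Agent.P141.H97b.BirthM
import Vale.Agent.P141.H150.MvB

/-!
# P141, line W, end lemma (E-FR): births and drops, plane processes living on one cell

A plane process of scale `K` on the square `(K; p2, p3)`, seen in the trees of any roots of scale
`L ≥ K`.

* `PCl`: the rules; `PCl.swap`;
* `PCl.tb_le`: the sum over `x1` and over all the roots of `tb`;
* `PCl.tb_zero`: nothing unless `x0` is matched to the cell;
* `pcl_mv`: 150's process with moving kernel, cut to the cell; `area_mv`, `rE_mv_le`;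
* `famB_le`, `famA_le`: finite families, all fibres, all roots.
-/

namespace Vale.Agent.P141.H97b

open Finset Vale.Agent.P141.PL Vale.Agent.P141.PL.H317
open Vale.Agent.P141.PL.H315 (avg)
open Vale.Agent.P141.H443 hiding us_of_reset fa_row fb_col
open Vale.Agent.P141.H337
open Vale.Agent.P141.H150.Mv (st actH bA evE)

noncomputable section

/-! ### The rules -/

section rules

variable {ι : Type*}

/-- **The rules of a plane process on a cell**: `act` the active components, `cs` the components of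
a square, `rk` the scale of a component, `rs` the birth squares, `al` the alive pairs (point `x1`,
square). -/
structure PCl (act cs : ℕ → ℤ → ℤ → Finset ι) (rk : ι → ℕ) (rs : ℕ → ℤ → ℤ → Prop)
    (al : ℕ → ℤ → ℤ → ℤ → Prop) (K : ℕ) (p2 p3 : ℤ) : Prop where
  le : ∀ k n m, ∀ i ∈ act k n m, k ≤ rk i ∧ rk i ≤ K
  born : ∀ k n m, ∀ i ∈ act k n m, rk i = k → rs k n m ∧ i ∈ cs k n m
  up : ∀ k < K, ∀ n m, ∀ i ∈ act k n m, k < rk i → i ∈ act (k + 1) (n / 2) (m / 2)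
  alup : ∀ k < K, ∀ x1 n m, al k x1 n m → al (k + 1) x1 (n / 2) (m / 2)
  cell : ∀ k n m, rs k n m → k ≤ K ∧ n ∈ iv (K - k) p2 ∧ m ∈ iv (K - k) p3

variable {act cs : ℕ → ℤ → ℤ → Finset ι} {rk : ι → ℕ} {rs : ℕ → ℤ → ℤ → Prop}
  {al : ℕ → ℤ → ℤ → ℤ → Prop} {K : ℕ} {p2 p3 : ℤ}

/-- the exchange of the two coordinates of the plane -/
theorem PCl.swap (h : PCl act cs rk rs al K p2 p3) :
    PCl (fun k m n => act k n m) (fun k m n => cs k n m) rk (fun k m n => rs k n m)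
      (fun k x1 m n => al k x1 n m) K p3 p2 where
  le k n m := h.le k m n
  born k n m := h.born k m n
  up k hk n m := h.up k hk m n
  alup k hk x1 n m := h.alup k hk x1 m n
  cell k n m hr := ⟨(h.cell k m n hr).1, (h.cell k m n hr).2.2, (h.cell k m n hr).2.1⟩

/-- new components are born -/
theorem PCl.birth [DecidableEq ι] (h : PCl act cs rk rs al K p2 p3) {o x0 x1 : ℤ} (ho : |o| ≤ 1)
    {k : ℕ} {b : ℤ} {i : ι}
    (hi : i ∈ winM act al o x0 x1 k b \ winM act al o x0 x1 (k + 1) (b / 2)) :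
    ∃ n ∈ wn o x0 x1 k b, al k x1 n b ∧ rs k n b ∧ i ∈ cs k n b := by
  rw [mem_sdiff] at hi
  obtain ⟨h1, h2⟩ := hi
  obtain ⟨n, hn, ha, hin⟩ := mem_winM.1 h1
  have h4 := h.le k n b i hin
  have h3 : rk i = k := by
    by_contra hr
    have hk : k < K := by omega
    exact h2 (mem_winM.2 ⟨n / 2, wn_up ho hn, h.alup k hk x1 n b ha,
      h.up k hk n b i hin (by omega)⟩)
  obtain ⟨h5, h6⟩ := h.born k n b i hin h3
  exact ⟨n, hn, ha, h5, h6⟩

theorem PCl.top (h : PCl act cs rk rs al K p2 p3) {o x0 x1 : ℤ} {L : ℕ} (hKL : K ≤ L) {b : ℤ}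
    {i : ι} (hi : i ∈ winM act al o x0 x1 L b) :
    ∃ n ∈ wn o x0 x1 L b, al L x1 n b ∧ rs L n b ∧ i ∈ cs L n b := by
  obtain ⟨n, hn, ha, hin⟩ := mem_winM.1 hi
  have h4 := h.le L n b i hin
  obtain ⟨h5, h6⟩ := h.born L n b i hin (by omega)
  exact ⟨n, hn, ha, h5, h6⟩

/-- one cell `(k, b)` of the tree, summed over `x1` -/
theorem PCl.cell_le (h : PCl act cs rk rs al K p2 p3) {o x0 : ℤ} {d : ℤ → ℤ → ℝ}
    (f : ι → ℤ → ℝ) {D : ℝ}
    (hd : ∀ k j n m, rs k n m → ∀ x ∈ iv k m, ∀ T ⊆ iv k j, (∀ x1 ∈ T, al k x1 n m) →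
      ∑ x1 ∈ T, d x1 x ^ 2 ≤ D * 2 ^ k) (I : Finset ℤ) (k : ℕ) (b : ℤ) (W : ℤ → Finset ι)
    (hW : ∀ x1, ∀ i ∈ W x1, ∃ n ∈ wn o x0 x1 k b, al k x1 n b ∧ rs k n b ∧ i ∈ cs k n b)
    [∀ n, Decidable (rs k n b)] :
    ∑ x1 ∈ I, 2 ^ k * ms (cz d f x1) (W x1) (ivm k b) ≤
      17 * D * ∑ n ∈ iv (K - k) p2,
        if rs k n b then 2 ^ k * ∑ i ∈ cs k n b, ∑ x ∈ iv k b, f i x ^ 2 else 0 := by
  classical
  have h1 := sum_ms_le (al := al) (o := o) (x0 := x0) (d := d) (f := f) (D := D)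
    (N := (iv (K - k) p2).filter fun n => rs k n b) (fun n => cs k n b) W
    (fun x1 i hi => by
      obtain ⟨n, h1, h2, h3, h4⟩ := hW x1 i hi
      exact ⟨n, h1, h2, mem_filter.2 ⟨(h.cell k n b h3).2.1, h3⟩, h4⟩)
    (fun j n hn x hx T hT hT' => hd k j n b (mem_filter.1 hn).2 x hx T hT hT') I
  rw [← mul_sum]
  refine (mul_le_mul_of_nonneg_left h1 (by positivity)).trans (le_of_eq ?_)
  rw [sum_filter, mul_left_comm, mul_sum]
  congr 1
  refine sum_congr rfl fun n _ => ?_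
  split_ifs <;> simp

/-- the cells of a scale under different roots are different -/
theorem sum_roots_le {L k : ℕ} (B : Finset ℤ) (N : Finset ℤ) {v : ℤ → ℝ}
    (hv : ∀ b, 0 ≤ v b) (hN : ∀ b, b ∉ N → v b = 0) :
    ∑ S ∈ B, ∑ b ∈ iv (L - k) S, v b ≤ ∑ b ∈ N, v b := by
  classical
  have h1 : ∑ S ∈ B, ∑ b ∈ iv (L - k) S, v b = ∑ b ∈ B.biUnion fun S => iv (L - k) S, v b := by
    rw [sum_biUnion]
    intro S _ S' _ hne
    rw [Function.onFun, disjoint_left]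
    intro b h1 h2
    rw [mem_iv] at h1 h2
    exact hne (h1.symm.trans h2)
  rw [h1, ← sum_filter_add_sum_filter_not _ (fun b => b ∈ N)]
  have h2 : ∑ b ∈ (B.biUnion fun S => iv (L - k) S).filter (fun b => ¬ b ∈ N), v b = 0 :=
    sum_eq_zero fun b hb => hN b (mem_filter.1 hb).2
  rw [h2, add_zero]
  exact sum_le_sum_of_subset_of_nonneg (fun b hb => (mem_filter.1 hb).2) fun b _ _ => hv b

/-- **Roots and births, summed over `x1` and over the roots.** -/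
theorem PCl.tb_le [DecidableEq ι] (h : PCl act cs rk rs al K p2 p3) {o x0 : ℤ} (ho : |o| ≤ 1)
    {d : ℤ → ℤ → ℝ} (f : ι → ℤ → ℝ) {D : ℝ} (hD : 0 ≤ D) {L : ℕ} (hKL : K ≤ L)
    (hd : ∀ k j n m, rs k n m → ∀ x ∈ iv k m, ∀ T ⊆ iv k j, (∀ x1 ∈ T, al k x1 n m) →
      ∑ x1 ∈ T, d x1 x ^ 2 ≤ D * 2 ^ k) (I B : Finset ℤ) :
    ∑ S ∈ B, ∑ x1 ∈ I, tb (cz d f x1) (winM act al o x0 x1) L S ≤
      17 * D * rE rs K p2 p3 fun k n m => 2 ^ k * ∑ i ∈ cs k n m, ∑ x ∈ iv k m, f i x ^ 2 := by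
  classical
  set v : ℕ → ℤ → ℝ := fun k b => ∑ n ∈ iv (K - k) p2,
    if rs k n b then 2 ^ k * ∑ i ∈ cs k n b, ∑ x ∈ iv k b, f i x ^ 2 else 0 with hv
  have v0 : ∀ k b, 0 ≤ v k b := by
    intro k b
    refine sum_nonneg fun n _ => ?_
    split_ifs
    · exact mul_nonneg (by positivity) (sum_nonneg fun _ _ => sum_nonneg fun _ _ => sq_nonneg _)
    · exact le_rfl
  have vN : ∀ k b, b ∉ iv (K - k) p3 → v k b = 0 := by
    intro k b hb
    refine sum_eq_zero fun n _ => ?_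
    rw [if_neg fun hr => hb (h.cell k n b hr).2.2]
  have vK : ∀ k b, K < k → v k b = 0 := by
    intro k b hk
    refine sum_eq_zero fun n _ => ?_
    rw [if_neg fun hr => by have := (h.cell k n b hr).1; omega]
  have h1 : ∀ S ∈ B, ∑ x1 ∈ I, tb (cz d f x1) (winM act al o x0 x1) L S ≤
      17 * D * ∑ k ∈ range (L + 1), ∑ b ∈ iv (L - k) S, v k b := by
    intro S _
    have a1 := h.cell_le (o := o) (x0 := x0) f hd I L S (fun x1 => winM act al o x0 x1 L S)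
      fun x1 i hi => h.top hKL hi
    have a2 : ∑ x1 ∈ I, ∑ k ∈ range L, ∑ b ∈ cel L S k,
        2 ^ k * bm (cz d f x1) (winM act al o x0 x1) k b ≤
        17 * D * ∑ k ∈ range L, ∑ b ∈ iv (L - k) S, v k b := by
      rw [sum_comm, mul_sum]
      refine sum_le_sum fun k _ => ?_
      rw [sum_comm, mul_sum, cel_eq]
      refine sum_le_sum fun b _ => ?_
      exact h.cell_le f hd I k b
        (fun x1 => winM act al o x0 x1 k b \ winM act al o x0 x1 (k + 1) (b / 2))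
        fun x1 i hi => h.birth ho hi
    have a3 : ∑ b ∈ iv (L - L) S, v L b = v L S := by rw [Nat.sub_self, sum_iv_zero]
    unfold tb
    rw [sum_add_distrib, sum_range_succ, a3, mul_add]
    have a4 : ∑ x1 ∈ I, 2 ^ L * ms (cz d f x1) (winM act al o x0 x1 L S) (ivm L S) ≤
        17 * D * v L S := a1
    linarith
  refine (sum_le_sum h1).trans ?_
  rw [← mul_sum, sum_comm]
  refine mul_le_mul_of_nonneg_left ?_ (by positivity)
  have h2 : ∑ k ∈ range (L + 1), ∑ S ∈ B, ∑ b ∈ iv (L - k) S, v k b ≤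
      ∑ k ∈ range (L + 1), ∑ b ∈ iv (K - k) p3, v k b :=
    sum_le_sum fun k _ => sum_roots_le B _ (v0 k) (vN k)
  have h3 : ∑ k ∈ range (L + 1), ∑ b ∈ iv (K - k) p3, v k b =
      ∑ k ∈ range (K + 1), ∑ b ∈ iv (K - k) p3, v k b := by
    symm
    refine sum_subset (range_mono (by omega)) fun k _ hk => ?_
    rw [mem_range] at hk
    exact sum_eq_zero fun b _ => vK k b (by omega)
  rw [h3] at h2
  refine h2.trans (le_of_eq ?_)
  unfold rE
  refine sum_congr rfl fun k _ => ?_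
  rw [hv, sum_comm]

/-- **Nothing is born near an unmatched fibre.** -/
theorem PCl.tb_zero [DecidableEq ι] (h : PCl act cs rk rs al K p2 p3) {o x0 x1 : ℤ}
    (ho : |o| ≤ 1) {L : ℕ} (hKL : K ≤ L)
    (hz : ∀ k n b, n ∈ wn o x0 x1 k b → al k x1 n b → ¬ rs k n b) (c : ι → ℤ → ℝ) (S : ℤ) :
    tb c (winM act al o x0 x1) L S = 0 := by
  have h1 : winM act al o x0 x1 L S = ∅ := by
    rw [eq_empty_iff_forall_notMem]
    intro i hi
    obtain ⟨n, h2, h3, h4, _⟩ := h.top hKL hi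
    exact hz L n S h2 h3 h4
  have h2 : ∀ k b, winM act al o x0 x1 k b \ winM act al o x0 x1 (k + 1) (b / 2) = ∅ := by
    intro k b
    rw [eq_empty_iff_forall_notMem]
    intro i hi
    obtain ⟨n, h2, h3, h4, _⟩ := h.birth ho hi
    exact hz k n b h2 h3 h4
  have h0 : ∀ J, ms c (∅ : Finset ι) J = 0 := fun J => by unfold ms; rw [sum_empty]
  unfold tb
  rw [h1, h0, mul_zero, zero_add]
  refine sum_eq_zero fun k _ => sum_eq_zero fun b _ => ?_
  unfold bm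
  rw [h2 k b, h0, mul_zero]

end rules

/-- matched cells: the scale `K` cell of `x0` and the cell `(p1, p2, p3)` -/
def mtc (o : ℤ) (K : ℕ) (p1 p2 p3 x0 : ℤ) : Prop := |ix K x0 + p1 + p2 + p3 - (o - 2)| ≤ 8

/-- near squares have near ancestors -/
theorem nr_anc {o x0 x1 : ℤ} (ho : |o| ≤ 1) {K : ℕ} {k : ℕ} (hk : k ≤ K) {n m : ℤ}
    (h : nr o x0 x1 k n m) : nr o x0 x1 K (ix (K - k) n) (ix (K - k) m) := by
  obtain ⟨j, rfl⟩ : ∃ j, K = k + j := ⟨K - k, by omega⟩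
  clear hk
  induction j with
  | zero => simpa [ix_zero] using h
  | succ j ih =>
    have h1 := nr_up ho ih
    have e : ∀ a : ℤ, ix (k + j - k) a / 2 = ix (k + (j + 1) - k) a := by
      intro a
      have e1 : k + j - k = j := by omega
      have e2 : k + (j + 1) - k = j + 1 := by omega
      rw [e1, e2, ← ix_ix j 1 a]
      unfold ix; norm_num
    rw [e, e] at h1
    exact h1

theorem mtc_of_wn {o x0 x1 : ℤ} (ho : |o| ≤ 1) {K k : ℕ} {p1 p2 p3 n m : ℤ} (hk : k ≤ K)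
    (hn : n ∈ iv (K - k) p2) (hm : m ∈ iv (K - k) p3) (h1 : ix K x1 = p1)
    (h : n ∈ wn o x0 x1 k m) : mtc o K p1 p2 p3 x0 := by
  have h2 := nr_anc ho hk (nr_iff.2 h)
  rw [mem_iv.1 hn, mem_iv.1 hm] at h2
  unfold nr at h2
  unfold mtc
  rw [h1] at h2
  rw [abs_le] at *
  constructor <;> linarith [h2.1, h2.2]

/-! ### 150's process with moving kernel, cut to a cell -/

section mv

variable {A : ℕ → ℤ → ℤ → ℝ} {c ξ η : ℝ} {us ev : ℕ → ℤ → ℤ → Prop} {K : ℕ} {p2 p3 : ℤ}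

open Classical in
/-- the active components on the squares of the cell `(K; p2, p3)` -/
def mvC (A : ℕ → ℤ → ℤ → ℝ) (c ξ η : ℝ) (us ev : ℕ → ℤ → ℤ → Prop) (K : ℕ) (p2 p3 : ℤ) (k : ℕ)
    (n m : ℤ) : Finset (ℕ × ℤ × ℤ) :=
  if k ≤ K ∧ n ∈ iv (K - k) p2 ∧ m ∈ iv (K - k) p3 then actH A c ξ η us ev K k n m else ∅

/-- the birth squares of the cell -/
def mvR (A : ℕ → ℤ → ℤ → ℝ) (c ξ η : ℝ) (us ev : ℕ → ℤ → ℤ → Prop) (K : ℕ) (p2 p3 : ℤ) (k : ℕ)
    (n m : ℤ) : Prop :=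
  (k ≤ K ∧ n ∈ iv (K - k) p2 ∧ m ∈ iv (K - k) p3) ∧ st A c ξ η us ev K k n m = some k

theorem iv_half_up {k : ℕ} (hk : k < K) {n p : ℤ} (h : n ∈ iv (K - k) p) :
    n / 2 ∈ iv (K - (k + 1)) p := by
  rw [mem_iv] at *
  have e : K - k = 1 + (K - (k + 1)) := by omega
  rw [e, ← ix_ix 1 (K - (k + 1)) n] at h
  have h3 : ix 1 n = n / 2 := by unfold ix; norm_num
  rw [h3] at h
  exact h

theorem pcl_mv {al : ℕ → ℤ → ℤ → ℤ → Prop}
    (alup : ∀ k < K, ∀ x1 n m, al k x1 n m → al (k + 1) x1 (n / 2) (m / 2)) :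
    PCl (mvC A c ξ η us ev K p2 p3) cset (fun i => i.1) (mvR A c ξ η us ev K p2 p3) al K p2 p3
    where
  le := by
    intro k n m i hi
    unfold mvC at hi
    split_ifs at hi with hk
    · exact H150.Mv.st_bounds hk.1 n m (H150.Mv.actH_scale hi)
    · exact absurd hi (notMem_empty _)
  born := by
    intro k n m i hi hik
    unfold mvC at hi
    split_ifs at hi with hk
    · have h1 := H150.Mv.actH_scale hi
      rw [H150.Mv.actH_some h1, hik, Nat.sub_self, ix_zero, ix_zero] at hi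
      rw [hik] at h1
      exact ⟨⟨hk, h1⟩, hi⟩
    · exact absurd hi (notMem_empty _)
  up := by
    intro k hk n m i hi hik
    unfold mvC at hi ⊢
    split_ifs at hi with h
    · rw [if_pos ⟨by omega, iv_half_up hk h.2.1, iv_half_up hk h.2.2⟩]
      exact H150.Mv.actH_up hk hi hik
    · exact absurd hi (notMem_empty _)
  alup := alup
  cell := fun k n m h => h.1

/-- the area of the birth squares under a square of scale `K` -/
theorem area_mv (hc : 0 ≤ c) (hξ : 0 < ξ) (hη : 0 < η)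
    (hus : ∀ k n m, us k n m → us (k + 1) (n / 2) (m / 2))
    (hev : ∀ k n m, ¬ ev k n m → ∀ x ∈ iv k n, ∀ y ∈ iv k m, A k x y = A (k + 1) x y) :
    rE (mvR A c ξ η us ev K p2 p3) K p2 p3 (fun k _ _ => 4 ^ k) ≤
      (1 / η + 2 / ξ) * (E2 (iv K p2) (iv K p3) (A K) + evE A ev K p2 p3) := by
  classical
  refine le_trans (le_of_eq ?_) (H150.Mv.births_le hc hξ hη hus hev p2 p3)
  unfold rE bA sumd mvR
  rw [sum_range_succ, add_comm, Nat.sub_self, sum_iv_zero, sum_iv_zero]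
  congr 1
  · have e1 : p2 ∈ iv 0 p2 := by rw [mem_iv, ix_zero]
    have e2 : p3 ∈ iv 0 p3 := by rw [mem_iv, ix_zero]
    by_cases h : st A c ξ η us ev K K p2 p3 = some K <;> simp [h, e1, e2]
  · refine sum_congr rfl fun k hk => sum_congr rfl fun n hn => sum_congr rfl fun m hm => ?_
    rw [mem_range] at hk
    by_cases h : st A c ξ η us ev K k n m = some k <;> simp [h, hk.le, hn, hm]

/-- **The energies at the birth squares of the process with moving kernel.** -/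
theorem rE_mv_le (hc : 0 ≤ c) (hξ : 0 < ξ) (hη : 0 < η)
    (hus : ∀ k n m, us k n m → us (k + 1) (n / 2) (m / 2))
    (hev : ∀ k n m, ¬ ev k n m → ∀ x ∈ iv k n, ∀ y ∈ iv k m, A k x y = A (k + 1) x y)
    {Λ : ℝ} (hΛ : 0 ≤ Λ)
    (hA : ∀ k ≤ K, ∀ n m, us k n m → E2 (iv k n) (iv k m) (A k) ≤ Λ * 4 ^ k) :
    rE (mvR A c ξ η us ev K p2 p3) K p2 p3 (fun k n m => E2 (iv k n) (iv k m) (A k)) ≤
      Λ * ((1 / η + 2 / ξ) * (E2 (iv K p2) (iv K p3) (A K) + evE A ev K p2 p3)) := by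
  have h1 : rE (mvR A c ξ η us ev K p2 p3) K p2 p3
      (fun k n m => E2 (iv k n) (iv k m) (A k)) ≤
      Λ * rE (mvR A c ξ η us ev K p2 p3) K p2 p3 fun k _ _ => 4 ^ k := by
    rw [← rE_mul]
    refine rE_mono fun k _ n _ m _ h => hA k h.1.1 n m ?_
    exact (H150.Mv.alive_energy h.1.1 (by rw [h.2]; exact Option.some_ne_none _)).1
  exact h1.trans (mul_le_mul_of_nonneg_left (area_mv hc hξ hη hus hev) hΛ)

end mv

/-! ### Finite families, all fibres, all roots -/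

theorem tb_nonneg {ι : Type*} [DecidableEq ι] (c : ι → ℤ → ℝ) (A : ℕ → ℤ → Finset ι) (K : ℕ)
    (b0 : ℤ) : 0 ≤ tb c A K b0 :=
  add_nonneg (mul_nonneg (by positivity) (ms_nonneg _ _ _))
    (sum_nonneg fun _ _ => sum_nonneg fun _ _ => mul_nonneg (by positivity) (ms_nonneg _ _ _))

section fam

variable {P Ω : Type*} [DecidableEq Ω] {Q : Finset P} {e : P → (ℕ × ℤ × ℤ) ↪ Ω}
  {A : ℤ → P → ℕ → ℤ → ℤ → ℝ} {c : P → ℝ} {act : ℤ → P → ℕ → ℤ → ℤ → Finset (ℕ × ℤ × ℤ)}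
  {rs : ℤ → P → ℕ → ℤ → ℤ → Prop} {al : ℤ → P → ℕ → ℤ → ℤ → ℤ → Prop} {L : ℕ} {K : P → ℕ}
  {c1 c2 c3 : P → ℤ} {cc : ℤ → ℤ → Ω → ℤ → ℝ} {d : P → ℤ → ℤ → ℝ} {D : P → ℝ} {o : ℤ}
  {X I : Finset ℤ}

open Classical in
/-- **Second functions (tree of the third coordinate): all fibres, all roots.** -/
theorem famB_le (hc : ∀ p ∈ Q, 0 ≤ c p) (hK : ∀ p ∈ Q, K p ≤ L)
    (h : ∀ x0 ∈ X, ∀ p ∈ Q,
      PCl (act x0 p) cset (fun i => i.1) (rs x0 p) (al x0 p) (K p) (c2 p) (c3 p))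
    (h1 : ∀ x0 ∈ X, ∀ p ∈ Q, ∀ k x1 n m, al x0 p k x1 n m → rs x0 p k n m →
      ix (K p) x1 = c1 p) (ho : |o| ≤ 1)
    (hcc : ∀ x0 ∈ X, ∀ p ∈ Q, ∀ x1 i x, cc x0 x1 (e p i) x =
      d p x1 x * mcB (A x0 p) (c p) i x)
    (hD : ∀ p ∈ Q, 0 ≤ D p)
    (hd : ∀ x0 ∈ X, ∀ p ∈ Q, ∀ k j n m, rs x0 p k n m → ∀ x ∈ iv k m, ∀ T ⊆ iv k j,
      (∀ x1 ∈ T, al x0 p k x1 n m) → ∑ x1 ∈ T, d p x1 x ^ 2 ≤ D p * 2 ^ k)
    (B : ℤ → ℤ → Finset ℤ) :
    ∑ x0 ∈ X, ∑ x1 ∈ I, ∑ S ∈ B x0 x1,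
      tb (cc x0 x1) (uF Q e fun p => winM (act x0 p) (al x0 p) o x0 x1) L S ≤
      ∑ p ∈ Q, 17 * D p * ∑ x0 ∈ X.filter (fun x0 => mtc o (K p) (c1 p) (c2 p) (c3 p) x0),
        rE (rs x0 p) (K p) (c2 p) (c3 p) fun k n m => E2 (iv k n) (iv k m) (A x0 p k) := by
  set Bu : Finset ℤ := X.biUnion fun x0 => I.biUnion fun x1 => B x0 x1 with hBu
  have h2 : ∀ x0 ∈ X, ∑ x1 ∈ I, ∑ S ∈ B x0 x1,
      tb (cc x0 x1) (uF Q e fun p => winM (act x0 p) (al x0 p) o x0 x1) L S ≤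
      ∑ p ∈ Q, if mtc o (K p) (c1 p) (c2 p) (c3 p) x0 then
        17 * D p * rE (rs x0 p) (K p) (c2 p) (c3 p) fun k n m =>
          E2 (iv k n) (iv k m) (A x0 p k) else 0 := by
    intro x0 hx0
    have h3 : ∀ x1 ∈ I, ∑ S ∈ B x0 x1,
        tb (cc x0 x1) (uF Q e fun p => winM (act x0 p) (al x0 p) o x0 x1) L S ≤
        ∑ S ∈ Bu, ∑ p ∈ Q, tb (cz (d p) (mcB (A x0 p) (c p)) x1)
          (winM (act x0 p) (al x0 p) o x0 x1) L S := by
      intro x1 hx1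
      have h4 : B x0 x1 ⊆ Bu := fun S hS =>
        mem_biUnion.2 ⟨x0, hx0, mem_biUnion.2 ⟨x1, hx1, hS⟩⟩
      refine (sum_le_sum_of_subset_of_nonneg h4 fun S _ _ => tb_nonneg _ _ _ _).trans ?_
      refine sum_le_sum fun S _ => ?_
      refine (tb_uF_le (cc x0 x1) Q e _ L S).trans (le_of_eq ?_)
      refine sum_congr rfl fun p hp => ?_
      have e1 : (fun i => cc x0 x1 (e p i)) = cz (d p) (mcB (A x0 p) (c p)) x1 := by
        funext i x
        exact hcc x0 hx0 p hp x1 i x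
      rw [e1]
    refine (sum_le_sum h3).trans ?_
    have h5 : ∑ x1 ∈ I, ∑ S ∈ Bu, ∑ p ∈ Q, tb (cz (d p) (mcB (A x0 p) (c p)) x1)
        (winM (act x0 p) (al x0 p) o x0 x1) L S =
        ∑ p ∈ Q, ∑ S ∈ Bu, ∑ x1 ∈ I, tb (cz (d p) (mcB (A x0 p) (c p)) x1)
        (winM (act x0 p) (al x0 p) o x0 x1) L S := by
      rw [sum_comm]
      have h6 : ∀ S ∈ Bu, ∑ x1 ∈ I, ∑ p ∈ Q, tb (cz (d p) (mcB (A x0 p) (c p)) x1)
          (winM (act x0 p) (al x0 p) o x0 x1) L S = ∑ p ∈ Q, ∑ x1 ∈ I,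
            tb (cz (d p) (mcB (A x0 p) (c p)) x1)
          (winM (act x0 p) (al x0 p) o x0 x1) L S := fun S _ => sum_comm
      rw [sum_congr rfl h6, sum_comm]
    rw [h5]
    refine sum_le_sum fun p hp => ?_
    split_ifs with hm
    · refine ((h x0 hx0 p hp).tb_le ho (mcB (A x0 p) (c p)) (hD p hp) (hK p hp)
        (hd x0 hx0 p hp) I Bu).trans ?_
      refine mul_le_mul_of_nonneg_left ?_ (mul_nonneg (by norm_num) (hD p hp))
      exact rE_mono fun k _ n _ m _ _ => sum_mcB (hc p hp) k n m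
    · refine (sum_eq_zero fun S _ => sum_eq_zero fun x1 _ => ?_).le
      refine (h x0 hx0 p hp).tb_zero ho (hK p hp) (fun k n b h7 h8 h9 => hm ?_) _ S
      obtain ⟨h10, h11, h12⟩ := (h x0 hx0 p hp).cell k n b h9
      exact mtc_of_wn ho h10 h11 h12 (h1 x0 hx0 p hp k x1 n b h8 h9) h7
  refine (sum_le_sum h2).trans (le_of_eq ?_)
  rw [sum_comm]
  refine sum_congr rfl fun p _ => ?_
  rw [← sum_filter, mul_sum]

open Classical in
/-- **First functions (tree of the second coordinate): all fibres, all roots.** -/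
theorem famA_le (hc : ∀ p ∈ Q, 0 ≤ c p) (hK : ∀ p ∈ Q, K p ≤ L)
    (h : ∀ x0 ∈ X, ∀ p ∈ Q,
      PCl (act x0 p) cset (fun i => i.1) (rs x0 p) (al x0 p) (K p) (c2 p) (c3 p))
    (h1 : ∀ x0 ∈ X, ∀ p ∈ Q, ∀ k x1 n m, al x0 p k x1 n m → rs x0 p k n m →
      ix (K p) x1 = c1 p) (ho : |o| ≤ 1)
    (hcc : ∀ x0 ∈ X, ∀ p ∈ Q, ∀ x1 i x, cc x0 x1 (e p i) x =
      d p x1 x * mcA (A x0 p) (c p) i x)
    (hD : ∀ p ∈ Q, 0 ≤ D p)
    (hd : ∀ x0 ∈ X, ∀ p ∈ Q, ∀ k j n m, rs x0 p k n m → ∀ x ∈ iv k n, ∀ T ⊆ iv k j,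
      (∀ x1 ∈ T, al x0 p k x1 n m) → ∑ x1 ∈ T, d p x1 x ^ 2 ≤ D p * 2 ^ k)
    (B : ℤ → ℤ → Finset ℤ) :
    ∑ x0 ∈ X, ∑ x1 ∈ I, ∑ S ∈ B x0 x1,
      tb (cc x0 x1) (uF Q e fun p => winM (fun k m n => act x0 p k n m)
        (fun k x1 m n => al x0 p k x1 n m) o x0 x1) L S ≤
      ∑ p ∈ Q, 17 * D p * (c p / 2 *
        ∑ x0 ∈ X.filter (fun x0 => mtc o (K p) (c1 p) (c2 p) (c3 p) x0),
        rE (rs x0 p) (K p) (c2 p) (c3 p) fun k n m => E2 (iv k n) (iv k m) (A x0 p k)) := by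
  set Bu : Finset ℤ := X.biUnion fun x0 => I.biUnion fun x1 => B x0 x1 with hBu
  have h2 : ∀ x0 ∈ X, ∑ x1 ∈ I, ∑ S ∈ B x0 x1,
      tb (cc x0 x1) (uF Q e fun p => winM (fun k m n => act x0 p k n m)
        (fun k x1 m n => al x0 p k x1 n m) o x0 x1) L S ≤
      ∑ p ∈ Q, if mtc o (K p) (c1 p) (c2 p) (c3 p) x0 then
        17 * D p * (c p / 2 * rE (rs x0 p) (K p) (c2 p) (c3 p) fun k n m =>
          E2 (iv k n) (iv k m) (A x0 p k)) else 0 := by
    intro x0 hx0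
    have h3 : ∀ x1 ∈ I, ∑ S ∈ B x0 x1,
        tb (cc x0 x1) (uF Q e fun p => winM (fun k m n => act x0 p k n m)
          (fun k x1 m n => al x0 p k x1 n m) o x0 x1) L S ≤
        ∑ S ∈ Bu, ∑ p ∈ Q, tb (cz (d p) (mcA (A x0 p) (c p)) x1)
          (winM (fun k m n => act x0 p k n m)
            (fun k x1 m n => al x0 p k x1 n m) o x0 x1) L S := by
      intro x1 hx1
      have h4 : B x0 x1 ⊆ Bu := fun S hS =>
        mem_biUnion.2 ⟨x0, hx0, mem_biUnion.2 ⟨x1, hx1, hS⟩⟩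
      refine (sum_le_sum_of_subset_of_nonneg h4 fun S _ _ => tb_nonneg _ _ _ _).trans ?_
      refine sum_le_sum fun S _ => ?_
      refine (tb_uF_le (cc x0 x1) Q e _ L S).trans (le_of_eq ?_)
      refine sum_congr rfl fun p hp => ?_
      have e1 : (fun i => cc x0 x1 (e p i)) = cz (d p) (mcA (A x0 p) (c p)) x1 := by
        funext i x
        exact hcc x0 hx0 p hp x1 i x
      rw [e1]
    refine (sum_le_sum h3).trans ?_
    have h5 : ∑ x1 ∈ I, ∑ S ∈ Bu, ∑ p ∈ Q, tb (cz (d p) (mcA (A x0 p) (c p)) x1)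
        (winM (fun k m n => act x0 p k n m) (fun k x1 m n => al x0 p k x1 n m) o x0 x1) L S =
        ∑ p ∈ Q, ∑ S ∈ Bu, ∑ x1 ∈ I, tb (cz (d p) (mcA (A x0 p) (c p)) x1)
        (winM (fun k m n => act x0 p k n m) (fun k x1 m n => al x0 p k x1 n m) o x0 x1) L S := by
      rw [sum_comm]
      have h6 : ∀ S ∈ Bu, ∑ x1 ∈ I, ∑ p ∈ Q, tb (cz (d p) (mcA (A x0 p) (c p)) x1)
          (winM (fun k m n => act x0 p k n m) (fun k x1 m n => al x0 p k x1 n m) o x0 x1) L S =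
          ∑ p ∈ Q, ∑ x1 ∈ I, tb (cz (d p) (mcA (A x0 p) (c p)) x1)
          (winM (fun k m n => act x0 p k n m) (fun k x1 m n => al x0 p k x1 n m) o x0 x1) L S :=
        fun S _ => sum_comm
      rw [sum_congr rfl h6, sum_comm]
    rw [h5]
    refine sum_le_sum fun p hp => ?_
    have hP := (h x0 hx0 p hp).swap
    split_ifs with hm
    · refine (hP.tb_le ho (mcA (A x0 p) (c p)) (hD p hp) (hK p hp)
        (fun k j m n => hd x0 hx0 p hp k j n m) I Bu).trans ?_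
      refine mul_le_mul_of_nonneg_left ?_ (mul_nonneg (by norm_num) (hD p hp))
      rw [rE_swap (rs x0 p) (K p) (c2 p) (c3 p) fun k n m =>
        2 ^ k * ∑ i ∈ cset k n m, ∑ x ∈ iv k n, mcA (A x0 p) (c p) i x ^ 2, ← rE_mul]
      exact rE_mono fun k _ n _ m _ _ => sum_mcA (hc p hp) k n m
    · refine (sum_eq_zero fun S _ => sum_eq_zero fun x1 _ => ?_).le
      refine hP.tb_zero ho (hK p hp) (fun k m n h7 h8 h9 => hm ?_) _ S
      obtain ⟨h10, h11, h12⟩ := (h x0 hx0 p hp).cell k n m h9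
      exact mtc_of_wn ho h10 h11 h12 (h1 x0 hx0 p hp k x1 n m h8 h9)
        (nr_iff.1 (nr_comm.1 (nr_iff.2 h7)))
  refine (sum_le_sum h2).trans (le_of_eq ?_)
  rw [sum_comm]
  refine sum_congr rfl fun p _ => ?_
  rw [← sum_filter, mul_sum, mul_sum]

end fam

end

end Vale.Agent.P141.H97b
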