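import Vale.Agent.P141.H865.Ker3
import Vale.Agent.P141.H606.TKer

/-!
# P141, line W, end lemma (R5) / (E-FR): the cells of the used boxes

* `CO`, `mem_CO`, `CO_fst`: the cells of scale `K` of the used boxes;
* `act_sub_A3`, `act_sub_A2`: `hb`, `ha` of `H606.FibOK` for the window sets `WB`, `WA`.
-/

namespace Vale.Agent.P141.H97b

open Finset Vale.Agent.P141.PL Vale.Agent.P141.PL.H317
open Vale.Agent.P141.H911
open Vale.Agent.P141.H865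
open Vale.Agent.P141.H606 (Uf qf)

noncomputable section

/-- the cells of scale `K` of the used boxes of all the fibres -/
def CO (σ : Equiv.Perm (Fin 4)) (o : ℤ) (nd : Finset (ℕ × ℤ)) (L K : ℕ) : Finset Pt := by
  classical
  exact ((Ico (0 : ℤ) (6 * 2 ^ L)) ×ˢ (Ico (0 : ℤ) (6 * 2 ^ L))).biUnion fun z =>
    (Icc 1 L).biUnion fun k => (Uf σ o nd z.1 z.2 k).image fun n =>
      cx K (ptO k z.2 n (qf o z.1 z.2 k n))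

theorem mem_CO {σ : Equiv.Perm (Fin 4)} {o : ℤ} {nd : Finset (ℕ × ℤ)} {L K k : ℕ} {x0 x1 n : ℤ}
    (hx0 : x0 ∈ Ico (0 : ℤ) (6 * 2 ^ L)) (hx1 : x1 ∈ Ico (0 : ℤ) (6 * 2 ^ L)) (hk : 1 ≤ k)
    (hkL : k ≤ L) (hn : n ∈ Uf σ o nd x0 x1 k) :
    cx K (ptO k x1 n (qf o x0 x1 k n)) ∈ CO σ o nd L K := by
  classical
  unfold CO
  rw [mem_biUnion]
  refine ⟨(x0, x1), mem_product.2 ⟨hx0, hx1⟩, ?_⟩
  rw [mem_biUnion]
  exact ⟨k, mem_Icc.2 ⟨hk, hkL⟩, mem_image.2 ⟨n, hn, rfl⟩⟩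

theorem ix_range {L K : ℕ} (hK : K ≤ L) {x : ℤ} (hx : x ∈ Ico (0 : ℤ) (6 * 2 ^ L)) :
    ix K x ∈ Ico (0 : ℤ) (6 * 2 ^ (L - K)) := by
  rw [mem_Ico] at *
  unfold ix
  have h2 : (0 : ℤ) < 2 ^ K := by positivity
  refine ⟨Int.ediv_nonneg hx.1 h2.le, ?_⟩
  rw [Int.ediv_lt_iff_lt_mul h2, mul_assoc, ← pow_add, Nat.sub_add_cancel hK]
  exact hx.2

/-- the first coordinate of the cells -/
theorem CO_fst {σ : Equiv.Perm (Fin 4)} {o : ℤ} {nd : Finset (ℕ × ℤ)} {L K : ℕ} (hK : K ≤ L)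
    {e : Pt} (he : e ∈ CO σ o nd L K) : e.1 ∈ Ico (0 : ℤ) (6 * 2 ^ (L - K)) := by
  classical
  unfold CO at he
  rw [mem_biUnion] at he
  obtain ⟨z, hz, he⟩ := he
  rw [mem_biUnion] at he
  obtain ⟨k, _, he⟩ := he
  obtain ⟨n, _, rfl⟩ := mem_image.1 he
  exact ix_range hK (mem_product.1 hz).2

theorem mt_qf (o x0 x1 : ℤ) (k : ℕ) (n : ℤ) : mt o x0 x1 k (qf o x0 x1 k n) = n := by
  unfold mt qf qz ix
  ring

theorem qf_mt (o x0 x1 : ℤ) (k : ℕ) (n : ℤ) : mt o x0 x1 k n = qf o x0 x1 k n := by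
  unfold mt qf qz ix
  ring

section ok

variable {ι : Type*} {c : Pt} {B : ι → Bth} {G : ℕ → ℤ → ℤ → ℝ} {ex : ℕ → ℤ → ℤ → Prop}
  {I : Finset ι} {σ : Equiv.Perm (Fin 4)} {o : ℤ} {nd : Finset (ℕ × ℤ)} {L k : ℕ} {x0 x1 n : ℤ}

/-- `hb` of `FibOK` -/
theorem act_sub_A3 (hx0 : x0 ∈ Ico (0 : ℤ) (6 * 2 ^ L)) (hx1 : x1 ∈ Ico (0 : ℤ) (6 * 2 ^ L))
    (hk : 1 ≤ k) (hkL : k ≤ L) (hn : n ∈ Uf σ o nd x0 x1 k) :
    actO c B G ex I x1 k n (qf o x0 x1 k n) ⊆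
      WB B G ex (QO c B I fun i => CO σ o nd L (B i).K) o x0 x1 k (qf o x0 x1 k n) := by
  refine act_sub_WB ?_ fun i _ _ => mem_CO hx0 hx1 hk hkL hn
  have h := self_mem_wn o x0 x1 k (qf o x0 x1 k n)
  rwa [mt_qf] at h

/-- `ha` of `FibOK` -/
theorem act_sub_A2 (hx0 : x0 ∈ Ico (0 : ℤ) (6 * 2 ^ L)) (hx1 : x1 ∈ Ico (0 : ℤ) (6 * 2 ^ L))
    (hk : 1 ≤ k) (hkL : k ≤ L) (hn : n ∈ Uf σ o nd x0 x1 k) :
    actO c B G ex I x1 k n (qf o x0 x1 k n) ⊆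
      WA B G ex (QO c B I fun i => CO σ o nd L (B i).K) o x0 x1 k n := by
  refine act_sub_WA ?_ fun i _ _ => mem_CO hx0 hx1 hk hkL hn
  have h := self_mem_wn o x0 x1 k n
  rwa [qf_mt] at h

end ok

end

end Vale.Agent.P141.H97b
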