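import Vale.Agent.P141.H97b.BirthC
import Vale.Agent.P141.H97b.WinR
import Vale.Agent.P141.H585.Ev
import Vale.Agent.P141.H38.TRes

/-!
# P141, line W, end lemma (E-FR): the dropped mass in numbers

* `edge12`, `edge13`, `hdA`, `hdB`: the squares of the edges summed over the alive points;
* `Q17`, `card_Q17_le`: the number of the pairs (cell of `x0`, cell of the plane) which see a birth;
* `grp_le`: the sum over the planes of one birth;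
* `drA`, `drB`: **the dropped mass of a family of births, all fibres, all roots.**
-/

namespace Vale.Agent.P141.H97b

open Finset Vale.Agent.P141.PL Vale.Agent.P141.PL.H317
open Vale.Agent.P141.PL.H315 (Tri)
open Vale.Agent.P141.PL.H560 (cs cs_of_mem cs_of_not_mem)
open Vale.Agent.P141.H443 (E2 E2_nonneg cset)
open Vale.Agent.P141.H585 (id1 id1_nonneg id1_sq lvS sum_lvS_le VC thC thC_nonneg rC sd12 sd13
  sd23 sd12_nonneg sd13_nonneg sd23_nonneg hgt_th hgt_nonneg)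
open Vale.Agent.P141.H911 (uT Th)
open Vale.Agent.P141.H38 (qd crn3 cx_crn3 Th_near)
open Vale.Agent.P141.H865
open Vale.Agent.P141.H606 (DR)

noncomputable section

/-! ### The edges -/

/-- alive points in a cell, translated -/
theorem card_alive {θ : ℝ} (hθ : 0 ≤ θ) {E : Finset ℤ} {K k : ℕ} (hk : k ≤ K) {j t : ℤ}
    {T : Finset ℤ} (hT : T ⊆ iv k j) (hT' : ∀ x1 ∈ T, x1 + t ∈ lvS θ E K k) :
    (T.card : ℝ) ≤ 2 * θ * 2 ^ k := by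
  classical
  have h1 := sum_lvS_le hθ (E := E) (L := K) (k := k) (j := k) le_rfl hk (2 ^ k * j + t)
  refine le_trans ?_ h1
  have h2 : T.image (fun x => x + t) ⊆ Ico (2 ^ k * j + t) (2 ^ k * j + t + 2 ^ k) := by
    intro y hy
    obtain ⟨x, hx, rfl⟩ := mem_image.1 hy
    have := hT hx
    unfold iv at this
    rw [mem_Ico] at *
    constructor <;> linarith [this.1, this.2]
  refine le_trans ?_ (sum_le_sum_of_subset_of_nonneg h2 fun y _ _ => id1_nonneg _ _)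
  rw [sum_image fun x _ y _ h => by simpa using h]
  have h3 : ∀ x ∈ T, id1 (lvS θ E K k) (x + t) = 1 := by
    intro x hx
    unfold id1
    rw [if_pos (hT' x hx)]
  rw [sum_congr rfl h3]
  simp

theorem abs_cs_le {Q : Finset (ℤ × ℤ)} {h : ℤ × ℤ} {f : ℤ × ℤ → ℝ} {M : ℝ} (hM : 0 ≤ M)
    (hf : ∀ r, |f r| ≤ M) (w : ℤ × ℤ) : |cs Q h f w| ≤ M := by
  by_cases hw : (w.1 + h.1, w.2 + h.2) ∈ Q
  · rw [cs_of_mem hw]; exact hf _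
  · rw [cs_of_not_mem hw, abs_zero]; exact hM

/-- **The square of a translated edge summed over the alive points of its first variable.** -/
theorem sum_cs1 {θ : ℝ} (hθ : 0 ≤ θ) {E : Finset ℤ} {K k : ℕ} (hk : k ≤ K) {j : ℤ}
    {Q : Finset (ℤ × ℤ)} {t : ℤ × ℤ} {f : ℤ × ℤ → ℝ} {M : ℝ} (hM : 0 ≤ M)
    (hf : ∀ r, |f r| ≤ M) {T : Finset ℤ} (hT : T ⊆ iv k j)
    (hT' : ∀ x1 ∈ T, x1 + t.1 ∈ lvS θ E K k) (x : ℤ) :
    ∑ x1 ∈ T, cs Q t f (x1, x) ^ 2 ≤ 2 * (M ^ 2 * θ) * 2 ^ k := by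
  have h1 : ∀ x1 ∈ T, cs Q t f (x1, x) ^ 2 ≤ M ^ 2 := by
    intro x1 _
    rw [← sq_abs]
    exact pow_le_pow_left₀ (abs_nonneg _) (abs_cs_le hM hf _) 2
  refine (sum_le_card_nsmul _ _ _ h1).trans ?_
  rw [nsmul_eq_mul]
  have h2 := mul_le_mul_of_nonneg_right (card_alive hθ hk hT hT') (sq_nonneg M)
  refine h2.trans (le_of_eq ?_)
  ring

section edges

variable {κ μ : ℝ} {K k : ℕ} {q : Pt} {w v : Tri} {E1 E2 E3 : Finset ℤ}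

/-- edge `12`, alive first variable -/
theorem edge12 (hμ : 0 ≤ μ) (hv : VC κ K q w v E1 E2 E3) (hk : k ≤ K) (θ : Pt) {j : ℤ}
    {T : Finset ℤ} (hT : T ⊆ iv k j)
    (hT' : ∀ x1 ∈ T, x1 + θ.1 ∈ lvS (thC μ K q w) E1 K k) (x : ℤ) :
    ∑ x1 ∈ T, (uT K q θ v).1 (x1, x) ^ 2 ≤
      2 * (μ * rC K q w ^ 2 * sd12 K q w ^ 2 / κ ^ 4) * 2 ^ k := by
  rw [← hgt_th]
  exact sum_cs1 (thC_nonneg hμ K q w) hk (hgt_nonneg κ K q w (sd12_nonneg K q w)) hv.hgt12 hT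
    hT' x

/-- edge `13`, alive first variable -/
theorem edge13 (hμ : 0 ≤ μ) (hv : VC κ K q w v E1 E2 E3) (hk : k ≤ K) (θ : Pt) {j : ℤ}
    {T : Finset ℤ} (hT : T ⊆ iv k j)
    (hT' : ∀ x1 ∈ T, x1 + θ.1 ∈ lvS (thC μ K q w) E1 K k) (x : ℤ) :
    ∑ x1 ∈ T, (uT K q θ v).2.1 (x1, x) ^ 2 ≤
      2 * (μ * rC K q w ^ 2 * sd13 K q w ^ 2 / κ ^ 4) * 2 ^ k := by
  rw [← hgt_th]
  exact sum_cs1 (thC_nonneg hμ K q w) hk (hgt_nonneg κ K q w (sd13_nonneg K q w)) hv.hgt13 hT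
    hT' x

end edges

section coef

variable {ι : Type*} {B : ι → Bth} {κ μ : ℝ} {w : Tri} {p : ι × Pt × Pt} {k : ℕ}

/-- the first edge with its coefficient -/
theorem hdA (hμ : 0 ≤ μ) (hth : (B p.1).th = thC μ (B p.1).K (B p.1).q w)
    (hv : VC κ (B p.1).K (B p.1).q w (B p.1).v (B p.1).S1 (B p.1).S2 (B p.1).S3)
    (hk : k ≤ (B p.1).K) {j n m : ℤ} {T : Finset ℤ} (hT : T ⊆ iv k j)
    (hT' : ∀ x1 ∈ T, alC B p k x1 n m) (x : ℤ) :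
    ∑ x1 ∈ T, dA B p x1 x ^ 2 ≤ ((B p.1).a ^ 2 * (2 * (μ * rC (B p.1).K (B p.1).q w ^ 2 *
      sd12 (B p.1).K (B p.1).q w ^ 2 / κ ^ 4))) * 2 ^ k := by
  have h1 := edge12 hμ hv hk p.2.2 hT (fun x1 h => by
    have h2 := (hT' x1 h).1
    unfold al1 at h2
    rwa [hth] at h2) x
  unfold dA
  simp_rw [mul_pow]
  rw [← mul_sum, mul_assoc]
  exact mul_le_mul_of_nonneg_left h1 (sq_nonneg _)

/-- the second edge with its coefficient -/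
theorem hdB (hμ : 0 ≤ μ) (hth : (B p.1).th = thC μ (B p.1).K (B p.1).q w)
    (hv : VC κ (B p.1).K (B p.1).q w (B p.1).v (B p.1).S1 (B p.1).S2 (B p.1).S3)
    (hk : k ≤ (B p.1).K) {j n m : ℤ} {T : Finset ℤ} (hT : T ⊆ iv k j)
    (hT' : ∀ x1 ∈ T, alC B p k x1 n m) (x : ℤ) :
    ∑ x1 ∈ T, dB B p x1 x ^ 2 ≤ ((B p.1).b ^ 2 * (2 * (μ * rC (B p.1).K (B p.1).q w ^ 2 *
      sd13 (B p.1).K (B p.1).q w ^ 2 / κ ^ 4))) * 2 ^ k := by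
  have h1 := edge13 hμ hv hk p.2.2 hT (fun x1 h => by
    have h2 := (hT' x1 h).1
    unfold al1 at h2
    rwa [hth] at h2) x
  unfold dB
  simp_rw [mul_pow]
  rw [← mul_sum, mul_assoc]
  exact mul_le_mul_of_nonneg_left h1 (sq_nonneg _)

end coef

/-! ### The number of the pairs of cells which see a birth -/

open scoped Classical in
/-- the quadruples in the window `[0, 6 2 ^ J)²` with sum close to `s` and form close to `b` -/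
def Q17 (c : Pt) (s b : ℤ) (J : ℕ) : Finset (ℤ × Pt) :=
  (((Ico 0 (6 * 2 ^ J) ×ˢ Ico 0 (6 * 2 ^ J)) ×ˢ (Icc (s - 8) (s + 8) ×ˢ Icc (b - 5) (b + 5))) :
    Finset ((ℤ × ℤ) × ℤ × ℤ)).image (qd c)

theorem mem_Q17 {c : Pt} (hc : c.2.1 ≠ c.2.2) {s b : ℤ} {J : ℕ} {M : ℤ × Pt}
    (h0 : M.1 ∈ Ico 0 (6 * 2 ^ J)) (h1 : M.2.1 ∈ Ico 0 (6 * 2 ^ J))
    (hs : |M.1 + M.2.1 + M.2.2.1 + M.2.2.2 - s| ≤ 8)
    (hf : |el c M.2 - b| ≤ 5) : M ∈ Q17 c s b J := by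
  classical
  unfold Q17
  rw [mem_image]
  refine ⟨((M.1, M.2.1), (M.1 + M.2.1 + M.2.2.1 + M.2.2.2, el c M.2)), ?_, ?_⟩
  · rw [mem_product, mem_product, mem_product]
    rw [abs_le] at hf hs
    refine ⟨⟨h0, h1⟩, ?_, ?_⟩
    · rw [mem_Icc]
      constructor <;> linarith [hs.1, hs.2]
    · rw [mem_Icc]
      constructor <;> linarith [hf.1, hf.2]
  · have hne : c.2.2 - c.2.1 ≠ 0 := sub_ne_zero.2 (Ne.symm hc)
    have e1 : el c M.2 - c.1 * M.2.1 - c.2.1 * (M.1 + M.2.1 + M.2.2.1 + M.2.2.2 - M.1 - M.2.1) =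
        (c.2.2 - c.2.1) * M.2.2.2 := by
      unfold el; ring
    unfold qd
    simp only [e1, Int.mul_ediv_cancel_left _ hne]
    refine Prod.ext rfl (Prod.ext rfl (Prod.ext ?_ rfl))
    simp only
    ring

theorem card_Q17_le (c : Pt) (s b : ℤ) (J : ℕ) : ((Q17 c s b J).card : ℝ) ≤ 6732 * 4 ^ J := by
  classical
  have h1 : (Q17 c s b J).card ≤ (6 * 2 ^ J) * (6 * 2 ^ J) * (17 * 11) := by
    refine card_image_le.trans (le_of_eq ?_)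
    have e2 : ((6 : ℤ) * 2 ^ J - 0).toNat = 6 * 2 ^ J := by
      rw [sub_zero]
      have : ((6 : ℤ) * 2 ^ J) = ((6 * 2 ^ J : ℕ) : ℤ) := by push_cast; ring
      rw [this, Int.toNat_natCast]
    rw [card_product, card_product, card_product, Int.card_Ico, e2, Int.card_Icc, Int.card_Icc]
    have e3 : (s + 8 + 1 - (s - 8)).toNat = 17 := by
      rw [show s + 8 + 1 - (s - 8) = 17 by ring]; rfl
    have e4 : (b + 5 + 1 - (b - 5)).toNat = 11 := by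
      rw [show b + 5 + 1 - (b - 5) = 11 by ring]; rfl
    rw [e3, e4]
  have h2 : ((Q17 c s b J).card : ℝ) ≤ ((6 * 2 ^ J) * (6 * 2 ^ J) * (17 * 11) : ℕ) := by
    exact_mod_cast h1
  refine h2.trans (le_of_eq ?_)
  push_cast
  rw [show (4 : ℝ) ^ J = 2 ^ J * 2 ^ J by rw [← mul_pow]; norm_num]
  ring

/-! ### Grouping -/

/-- the sum over the planes of the family -/
theorem sum_QO {ι : Type*} (c : Pt) (B : ι → Bth) (I : Finset ι) (C : ι → Finset Pt)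
    (f : ι × Pt × Pt → ℝ) :
    ∑ p ∈ QO c B I C, f p = ∑ i ∈ I, ∑ e ∈ C i, ∑ θ ∈ Th c (B i).K (crn3 (B i).K e) (B i).q,
      f (i, e, θ) := by
  classical
  have h1 : ∀ i ∈ I, ∑ e ∈ C i, ∑ θ ∈ Th c (B i).K (crn3 (B i).K e) (B i).q, f (i, e, θ) =
      ∑ z ∈ (C i).sigma (fun e => Th c (B i).K (crn3 (B i).K e) (B i).q), f (i, z.1, z.2) :=
    fun i _ => (sum_sigma' (C i) (fun e => Th c (B i).K (crn3 (B i).K e) (B i).q)
      fun e θ => f (i, e, θ))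
  rw [sum_congr rfl h1, sum_sigma' I (fun i => (C i).sigma fun e =>
    Th c (B i).K (crn3 (B i).K e) (B i).q) fun i z => f (i, z.1, z.2)]
  refine sum_nbij' (fun p => ⟨p.1, ⟨p.2.1, p.2.2⟩⟩) (fun z => (z.1, z.2.1, z.2.2)) ?_ ?_ ?_ ?_ ?_
  · intro p hp
    have h := mem_QO.1 hp
    rw [mem_sigma, mem_sigma]
    exact ⟨h.1, h.2.1, h.2.2⟩
  · intro z hz
    rw [mem_sigma, mem_sigma] at hz
    exact mem_QO.2 ⟨hz.1, hz.2.1, hz.2.2⟩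
  · intro p _; rfl
  · intro z _; rfl
  · intro p _; rfl

open scoped Classical in
/-- **The planes of one birth.** -/
theorem grp_le {c : Pt} (hc : c.2.1 ≠ c.2.2) (hc6 : |c.1| + |c.2.1| + |c.2.2| ≤ 6) {L K : ℕ}
    (hK : K ≤ L) (q : Pt) (o : ℤ) {C : Finset Pt}
    (hC : ∀ e ∈ C, e.1 ∈ Ico (0 : ℤ) (6 * 2 ^ (L - K))) {F : Pt → Pt → ℤ → ℝ}
    (hF : ∀ e θ x0, 0 ≤ F e θ x0) {RN : ℝ}
    (hR : ∀ (M0 : ℤ) (e : Pt), ∑ θ ∈ Th c K (crn3 K e) q, ∑ x0 ∈ iv K M0, F e θ x0 ≤ RN) :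
    ∑ e ∈ C, ∑ θ ∈ Th c K (crn3 K e) q,
      ∑ x0 ∈ (Ico (0 : ℤ) (6 * 2 ^ L)).filter (fun x0 => mtc o K e.1 e.2.1 e.2.2 x0),
        F e θ x0 ≤ 6732 * 4 ^ (L - K) * RN := by
  set X := Ico (0 : ℤ) (6 * 2 ^ L) with hX
  set Y := Ico (0 : ℤ) (6 * 2 ^ (L - K)) with hY
  -- one cell
  have h1 : ∀ e ∈ C, ∑ θ ∈ Th c K (crn3 K e) q,
      ∑ x0 ∈ X.filter (fun x0 => mtc o K e.1 e.2.1 e.2.2 x0), F e θ x0 ≤
      ∑ M0 ∈ Y.filter (fun M0 => |M0 + e.1 + e.2.1 + e.2.2 - (o - 2)| ≤ 8 ∧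
        (Th c K (crn3 K e) q).Nonempty), ∑ θ ∈ Th c K (crn3 K e) q, ∑ x0 ∈ iv K M0, F e θ x0 := by
    intro e _
    by_cases hne : (Th c K (crn3 K e) q).Nonempty
    · rw [sum_comm (s := Y.filter _)]
      refine sum_le_sum fun θ _ => ?_
      have h2 : ∑ x0 ∈ X.filter (fun x0 => mtc o K e.1 e.2.1 e.2.2 x0), F e θ x0 =
          ∑ M0 ∈ Y.filter (fun M0 => |M0 + e.1 + e.2.1 + e.2.2 - (o - 2)| ≤ 8 ∧
            (Th c K (crn3 K e) q).Nonempty),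
            ∑ x0 ∈ (X.filter (fun x0 => mtc o K e.1 e.2.1 e.2.2 x0)).filter
              (fun x0 => ix K x0 = M0), F e θ x0 := by
        symm
        refine sum_fiberwise_of_maps_to (g := fun x0 => ix K x0) ?_ _
        intro x0 hx0
        rw [mem_filter] at hx0 ⊢
        exact ⟨ix_range hK hx0.1, hx0.2, hne⟩
      rw [h2]
      refine sum_le_sum fun M0 _ => ?_
      refine sum_le_sum_of_subset_of_nonneg ?_ fun x0 _ _ => hF e θ x0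
      intro x0 hx0
      rw [mem_filter] at hx0
      exact mem_iv.2 hx0.2
    · rw [not_nonempty_iff_eq_empty] at hne
      rw [hne, sum_empty]
      exact sum_nonneg fun _ _ => le_of_eq sum_empty.symm
  refine (sum_le_sum h1).trans ?_
  -- all the cells
  have h0 : 0 ≤ RN := le_trans
    (sum_nonneg fun θ _ => sum_nonneg fun x0 _ => hF _ θ x0) (hR 0 (0, 0, 0))
  have h3 : ∑ e ∈ C, ∑ M0 ∈ Y.filter (fun M0 => |M0 + e.1 + e.2.1 + e.2.2 - (o - 2)| ≤ 8 ∧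
        (Th c K (crn3 K e) q).Nonempty), ∑ θ ∈ Th c K (crn3 K e) q, ∑ x0 ∈ iv K M0, F e θ x0 ≤
      ∑ e ∈ C, ∑ M0 ∈ Y.filter (fun M0 => |M0 + e.1 + e.2.1 + e.2.2 - (o - 2)| ≤ 8 ∧
        (Th c K (crn3 K e) q).Nonempty), RN :=
    sum_le_sum fun e _ => sum_le_sum fun M0 _ => hR M0 e
  refine h3.trans ?_
  set T : Finset ((_ : Pt) × ℤ) := C.sigma fun e =>
    Y.filter (fun M0 => |M0 + e.1 + e.2.1 + e.2.2 - (o - 2)| ≤ 8 ∧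
        (Th c K (crn3 K e) q).Nonempty) with hT
  have h4 : ∑ e ∈ C, ∑ M0 ∈ Y.filter (fun M0 => |M0 + e.1 + e.2.1 + e.2.2 - (o - 2)| ≤ 8 ∧
        (Th c K (crn3 K e) q).Nonempty), RN = T.card * RN := by
    rw [sum_sigma' C _ fun _ _ => RN, sum_const, nsmul_eq_mul]
  rw [h4]
  refine mul_le_mul_of_nonneg_right ?_ h0
  refine le_trans ?_ (card_Q17_le c (o - 2) (el c (cx K q)) (L - K))
  have h5 : T.card ≤ (Q17 c (o - 2) (el c (cx K q)) (L - K)).card := by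
    refine card_le_card_of_injOn (fun z => (z.2, z.1)) ?_ ?_
    · intro z hz
      rw [mem_coe, hT, mem_sigma, mem_filter] at hz
      obtain ⟨hz1, hz2, hz3, hz4⟩ := hz
      have h6 := Th_near hc6 hz4
      rw [cx_crn3] at h6
      exact mem_Q17 hc hz2 (hC _ hz1) hz3 h6
    · intro z _ z' _ h
      obtain ⟨a, b⟩ := z
      obtain ⟨a', b'⟩ := z'
      simp only [Prod.mk.injEq] at h
      obtain ⟨h1, h2⟩ := h
      subst h1 h2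
      rfl
  exact_mod_cast h5

/-! ### The dropped mass -/

section dr

variable {ι : Type*}

theorem rE_nonneg' {rs : ℕ → ℤ → ℤ → Prop} {K : ℕ} {R S : ℤ} {v : ℕ → ℤ → ℤ → ℝ}
    (hv : ∀ k n m, 0 ≤ v k n m) : 0 ≤ rE rs K R S v := by
  classical
  unfold rE
  refine sum_nonneg fun _ _ => sum_nonneg fun _ _ => sum_nonneg fun _ _ => ?_
  split_ifs
  · exact hv _ _ _
  · exact le_rfl

open Classical in
/-- **The dropped mass of the first functions** (tree of the second coordinate). -/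
theorem drA0 {c : Pt} (hc : c.2.1 ≠ c.2.2) (hc6 : |c.1| + |c.2.1| + |c.2.2| ≤ 6) {o : ℤ}
    (ho : |o| ≤ 1) {L : ℕ} (B : ι → Bth) (I : Finset ι) (C : ι → Finset Pt)
    (G : ℤ → ℕ → ℤ → ℤ → ℝ) (ex : ℤ → ℕ → ℤ → ℤ → Prop) (hK : ∀ i ∈ I, (B i).K ≤ L)
    (hC : ∀ i ∈ I, ∀ e ∈ C i, e.1 ∈ Ico (0 : ℤ) (6 * 2 ^ (L - (B i).K)))
    (hcp : ∀ i ∈ I, 0 ≤ (B i).cp) {D : ι → ℝ} (hD : ∀ i ∈ I, 0 ≤ D i)
    (hd : ∀ i ∈ I, ∀ e θ : Pt, ∀ k ≤ (B i).K, ∀ j n m : ℤ, ∀ T ⊆ iv k j,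
      (∀ x1 ∈ T, alC B (i, e, θ) k x1 n m) → ∀ x : ℤ,
        ∑ x1 ∈ T, dA B (i, e, θ) x1 x ^ 2 ≤ D i * 2 ^ k) {RN : ι → ℝ}
    (hR : ∀ i ∈ I, ∀ (M0 : ℤ) (e : Pt), ∑ θ ∈ Th c (B i).K (crn3 (B i).K e) (B i).q,
      ∑ x0 ∈ iv (B i).K M0, rE (mvRO B (G x0) (ex x0) (i, e, θ)) (B i).K e.2.1 e.2.2
        (fun k n m => E2 (iv k n) (iv k m) (kA (B i) (G x0) θ k)) ≤ RN i)
    (R : ℤ → ℤ → Finset ℤ) :
    ∑ x0 ∈ Ico (0 : ℤ) (6 * 2 ^ L), ∑ x1 ∈ Ico (0 : ℤ) (6 * 2 ^ L), ∑ b ∈ R x0 x1,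
      DR (aO B (G x0) x1) (WA B (G x0) (ex x0) (QO c B I C) o x0 x1) L b ≤
    ∑ i ∈ I, 6732 * 4 ^ (L - (B i).K) * (17 * D i * ((B i).cp / 2 * RN i)) := by
  have hmem : ∀ p ∈ QO c B I C, p.1 ∈ I := fun p hp => (mem_QO.1 hp).1
  have h1 := famA_le (Q := QO c B I C) (e := eO) (A := fun x0 p => kA (B p.1) (G x0) p.2.2)
    (c := fun p => (B p.1).cp) (act := fun x0 p => mvO B (G x0) (ex x0) p)
    (rs := fun x0 p => mvRO B (G x0) (ex x0) p) (al := fun _ p => alC B p) (L := L)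
    (K := fun p => (B p.1).K) (c1 := fun p => p.2.1.1) (c2 := fun p => p.2.1.2.1)
    (c3 := fun p => p.2.1.2.2) (cc := fun x0 x1 => aO B (G x0) x1) (d := fun p => dA B p)
    (D := fun p => D p.1) (o := o) (X := Ico (0 : ℤ) (6 * 2 ^ L))
    (I := Ico (0 : ℤ) (6 * 2 ^ L))
    (fun p hp => hcp p.1 (hmem p hp)) (fun p hp => hK p.1 (hmem p hp))
    (fun x0 _ p _ => pclO B (G x0) (ex x0) p) (fun x0 _ p _ k x1 n m h _ => h.2) ho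
    (fun x0 _ p _ x1 i x => rfl) (fun p hp => hD p.1 (hmem p hp))
    (fun x0 _ p hp k j n m hr x _ T hT hT' =>
      hd p.1 (hmem p hp) p.2.1 p.2.2 k hr.1.1 j n m T hT hT' x) R
  refine le_trans (sum_le_sum fun x0 _ => sum_le_sum fun x1 _ => sum_le_sum fun b _ =>
    drop_le_tb _ _ L b) (h1.trans ?_)
  rw [sum_QO]
  refine sum_le_sum fun i hi => ?_
  have h2 := grp_le hc hc6 (hK i hi) (B i).q o (hC i hi)
    (F := fun e θ x0 => rE (mvRO B (G x0) (ex x0) (i, e, θ)) (B i).K e.2.1 e.2.2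
        (fun k n m => E2 (iv k n) (iv k m) (kA (B i) (G x0) θ k)))
    (fun e θ x0 => rE_nonneg' fun k n m => E2_nonneg _ _ _) (hR i hi)
  have h3 : 0 ≤ 17 * D i * ((B i).cp / 2) :=
    mul_nonneg (mul_nonneg (by norm_num) (hD i hi)) (div_nonneg (hcp i hi) (by norm_num))
  have h4 := mul_le_mul_of_nonneg_left h2 h3
  refine le_trans (le_of_eq ?_) (h4.trans (le_of_eq ?_))
  · rw [mul_sum]
    refine sum_congr rfl fun e _ => ?_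
    rw [mul_sum]
    refine sum_congr rfl fun θ _ => ?_
    simp only
    ring
  · ring

open Classical in
/-- **The dropped mass of the second functions** (tree of the third coordinate). -/
theorem drB0 {c : Pt} (hc : c.2.1 ≠ c.2.2) (hc6 : |c.1| + |c.2.1| + |c.2.2| ≤ 6) {o : ℤ}
    (ho : |o| ≤ 1) {L : ℕ} (B : ι → Bth) (I : Finset ι) (C : ι → Finset Pt)
    (G : ℤ → ℕ → ℤ → ℤ → ℝ) (ex : ℤ → ℕ → ℤ → ℤ → Prop) (hK : ∀ i ∈ I, (B i).K ≤ L)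
    (hC : ∀ i ∈ I, ∀ e ∈ C i, e.1 ∈ Ico (0 : ℤ) (6 * 2 ^ (L - (B i).K)))
    (hcp : ∀ i ∈ I, 0 ≤ (B i).cp) {D : ι → ℝ} (hD : ∀ i ∈ I, 0 ≤ D i)
    (hd : ∀ i ∈ I, ∀ e θ : Pt, ∀ k ≤ (B i).K, ∀ j n m : ℤ, ∀ T ⊆ iv k j,
      (∀ x1 ∈ T, alC B (i, e, θ) k x1 n m) → ∀ x : ℤ,
        ∑ x1 ∈ T, dB B (i, e, θ) x1 x ^ 2 ≤ D i * 2 ^ k) {RN : ι → ℝ}
    (hR : ∀ i ∈ I, ∀ (M0 : ℤ) (e : Pt), ∑ θ ∈ Th c (B i).K (crn3 (B i).K e) (B i).q,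
      ∑ x0 ∈ iv (B i).K M0, rE (mvRO B (G x0) (ex x0) (i, e, θ)) (B i).K e.2.1 e.2.2
        (fun k n m => E2 (iv k n) (iv k m) (kA (B i) (G x0) θ k)) ≤ RN i)
    (R : ℤ → ℤ → Finset ℤ) :
    ∑ x0 ∈ Ico (0 : ℤ) (6 * 2 ^ L), ∑ x1 ∈ Ico (0 : ℤ) (6 * 2 ^ L), ∑ b ∈ R x0 x1,
      DR (bO B (G x0) x1) (WB B (G x0) (ex x0) (QO c B I C) o x0 x1) L b ≤
    ∑ i ∈ I, 6732 * 4 ^ (L - (B i).K) * (17 * D i * RN i) := by
  have hmem : ∀ p ∈ QO c B I C, p.1 ∈ I := fun p hp => (mem_QO.1 hp).1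
  have h1 := famB_le (Q := QO c B I C) (e := eO) (A := fun x0 p => kA (B p.1) (G x0) p.2.2)
    (c := fun p => (B p.1).cp) (act := fun x0 p => mvO B (G x0) (ex x0) p)
    (rs := fun x0 p => mvRO B (G x0) (ex x0) p) (al := fun _ p => alC B p) (L := L)
    (K := fun p => (B p.1).K) (c1 := fun p => p.2.1.1) (c2 := fun p => p.2.1.2.1)
    (c3 := fun p => p.2.1.2.2) (cc := fun x0 x1 => bO B (G x0) x1) (d := fun p => dB B p)
    (D := fun p => D p.1) (o := o) (X := Ico (0 : ℤ) (6 * 2 ^ L))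
    (I := Ico (0 : ℤ) (6 * 2 ^ L))
    (fun p hp => hcp p.1 (hmem p hp)) (fun p hp => hK p.1 (hmem p hp))
    (fun x0 _ p _ => pclO B (G x0) (ex x0) p) (fun x0 _ p _ k x1 n m h _ => h.2) ho
    (fun x0 _ p _ x1 i x => rfl) (fun p hp => hD p.1 (hmem p hp))
    (fun x0 _ p hp k j n m hr x _ T hT hT' =>
      hd p.1 (hmem p hp) p.2.1 p.2.2 k hr.1.1 j n m T hT hT' x) R
  refine le_trans (sum_le_sum fun x0 _ => sum_le_sum fun x1 _ => sum_le_sum fun b _ =>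
    drop_le_tb _ _ L b) (h1.trans ?_)
  rw [sum_QO]
  refine sum_le_sum fun i hi => ?_
  have h2 := grp_le hc hc6 (hK i hi) (B i).q o (hC i hi)
    (F := fun e θ x0 => rE (mvRO B (G x0) (ex x0) (i, e, θ)) (B i).K e.2.1 e.2.2
        (fun k n m => E2 (iv k n) (iv k m) (kA (B i) (G x0) θ k)))
    (fun e θ x0 => rE_nonneg' fun k n m => E2_nonneg _ _ _) (hR i hi)
  have h3 : 0 ≤ 17 * D i := mul_nonneg (by norm_num) (hD i hi)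
  have h4 := mul_le_mul_of_nonneg_left h2 h3
  refine le_trans (le_of_eq ?_) (h4.trans (le_of_eq ?_))
  · rw [mul_sum]
    refine sum_congr rfl fun e _ => ?_
    rw [mul_sum]
  · ring

/-- **The dropped mass of the first functions**, any decidability instance. -/
theorem drA [DecidableEq ((ι × Pt × Pt) × (ℕ × ℤ × ℤ))] {c : Pt} (hc : c.2.1 ≠ c.2.2)
    (hc6 : |c.1| + |c.2.1| + |c.2.2| ≤ 6) {o : ℤ}
    (ho : |o| ≤ 1) {L : ℕ} (B : ι → Bth) (I : Finset ι) (C : ι → Finset Pt)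
    (G : ℤ → ℕ → ℤ → ℤ → ℝ) (ex : ℤ → ℕ → ℤ → ℤ → Prop) (hK : ∀ i ∈ I, (B i).K ≤ L)
    (hC : ∀ i ∈ I, ∀ e ∈ C i, e.1 ∈ Ico (0 : ℤ) (6 * 2 ^ (L - (B i).K)))
    (hcp : ∀ i ∈ I, 0 ≤ (B i).cp) {D : ι → ℝ} (hD : ∀ i ∈ I, 0 ≤ D i)
    (hd : ∀ i ∈ I, ∀ e θ : Pt, ∀ k ≤ (B i).K, ∀ j n m : ℤ, ∀ T ⊆ iv k j,
      (∀ x1 ∈ T, alC B (i, e, θ) k x1 n m) → ∀ x : ℤ,
        ∑ x1 ∈ T, dA B (i, e, θ) x1 x ^ 2 ≤ D i * 2 ^ k) {RN : ι → ℝ}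
    (hR : ∀ i ∈ I, ∀ (M0 : ℤ) (e : Pt), ∑ θ ∈ Th c (B i).K (crn3 (B i).K e) (B i).q,
      ∑ x0 ∈ iv (B i).K M0, rE (mvRO B (G x0) (ex x0) (i, e, θ)) (B i).K e.2.1 e.2.2
        (fun k n m => E2 (iv k n) (iv k m) (kA (B i) (G x0) θ k)) ≤ RN i)
    (R : ℤ → ℤ → Finset ℤ) :
    ∑ x0 ∈ Ico (0 : ℤ) (6 * 2 ^ L), ∑ x1 ∈ Ico (0 : ℤ) (6 * 2 ^ L), ∑ b ∈ R x0 x1,
      DR (aO B (G x0) x1) (WA B (G x0) (ex x0) (QO c B I C) o x0 x1) L b ≤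
    ∑ i ∈ I, 6732 * 4 ^ (L - (B i).K) * (17 * D i * ((B i).cp / 2 * RN i)) := by
  rename_i dq
  obtain rfl : dq = fun a b => Classical.propDecidable (a = b) := Subsingleton.elim _ _
  exact drA0 hc hc6 ho B I C G ex hK hC hcp hD hd hR R

/-- **The dropped mass of the second functions**, any decidability instance. -/
theorem drB [DecidableEq ((ι × Pt × Pt) × (ℕ × ℤ × ℤ))] {c : Pt} (hc : c.2.1 ≠ c.2.2)
    (hc6 : |c.1| + |c.2.1| + |c.2.2| ≤ 6) {o : ℤ}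
    (ho : |o| ≤ 1) {L : ℕ} (B : ι → Bth) (I : Finset ι) (C : ι → Finset Pt)
    (G : ℤ → ℕ → ℤ → ℤ → ℝ) (ex : ℤ → ℕ → ℤ → ℤ → Prop) (hK : ∀ i ∈ I, (B i).K ≤ L)
    (hC : ∀ i ∈ I, ∀ e ∈ C i, e.1 ∈ Ico (0 : ℤ) (6 * 2 ^ (L - (B i).K)))
    (hcp : ∀ i ∈ I, 0 ≤ (B i).cp) {D : ι → ℝ} (hD : ∀ i ∈ I, 0 ≤ D i)
    (hd : ∀ i ∈ I, ∀ e θ : Pt, ∀ k ≤ (B i).K, ∀ j n m : ℤ, ∀ T ⊆ iv k j,
      (∀ x1 ∈ T, alC B (i, e, θ) k x1 n m) → ∀ x : ℤ,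
        ∑ x1 ∈ T, dB B (i, e, θ) x1 x ^ 2 ≤ D i * 2 ^ k) {RN : ι → ℝ}
    (hR : ∀ i ∈ I, ∀ (M0 : ℤ) (e : Pt), ∑ θ ∈ Th c (B i).K (crn3 (B i).K e) (B i).q,
      ∑ x0 ∈ iv (B i).K M0, rE (mvRO B (G x0) (ex x0) (i, e, θ)) (B i).K e.2.1 e.2.2
        (fun k n m => E2 (iv k n) (iv k m) (kA (B i) (G x0) θ k)) ≤ RN i)
    (R : ℤ → ℤ → Finset ℤ) :
    ∑ x0 ∈ Ico (0 : ℤ) (6 * 2 ^ L), ∑ x1 ∈ Ico (0 : ℤ) (6 * 2 ^ L), ∑ b ∈ R x0 x1,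
      DR (bO B (G x0) x1) (WB B (G x0) (ex x0) (QO c B I C) o x0 x1) L b ≤
    ∑ i ∈ I, 6732 * 4 ^ (L - (B i).K) * (17 * D i * RN i) := by
  rename_i dq
  obtain rfl : dq = fun a b => Classical.propDecidable (a = b) := Subsingleton.elim _ _
  exact drB0 hc hc6 ho B I C G ex hK hC hcp hD hd hR R

end dr

end

end Vale.Agent.P141.H97b
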