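import Vale.Agent.P141.H97b.DropZ

/-!
# P141, line W, end lemma (E-FR): the births near the fibres, summed over `x1`

`rs k n m` : the square `(k; n, m)` is a birth square (root included), any predicate.
`al k j n m` : the box of scale `k` with cells `j`, `n`, `m` of `x1`, `x2`, `x3` is alive.

* `sum_near_le` : one square;
* `birthsA_z`, `birthsB_z` : the squares of the components born near the fibre, as in the form for
  one fibre, summed over `x1`: at most `17 D` times the energies of the kernel at the birth squares;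
* `rE_le_area` : at most `Λ` times the area of the birth squares.
-/

namespace Vale.Agent.P141.H97b

open Finset Vale.Agent.P141.PL Vale.Agent.P141.PL.H317
open Vale.Agent.P141.H443 hiding us_of_reset fa_row fb_col
open Vale.Agent.P141.H337

noncomputable section

/-- the square `(k; n, m)` is near the fibre of `(x0, x1)` -/
def nr (o x0 x1 : ℤ) (k : ℕ) (n m : ℤ) : Prop := |n + m - (o - 2 - ix k x0 - ix k x1)| ≤ 8

theorem nr_iff {o x0 x1 : ℤ} {k : ℕ} {n m : ℤ} : nr o x0 x1 k n m ↔ n ∈ wn o x0 x1 k m := by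
  unfold nr wn mt
  rw [mem_Icc, abs_le]
  constructor <;> intro h <;> omega

theorem nr_comm {o x0 x1 : ℤ} {k : ℕ} {n m : ℤ} : nr o x0 x1 k n m ↔ nr o x0 x1 k m n := by
  unfold nr
  rw [add_comm n m]

theorem nr_up {o x0 x1 : ℤ} (ho : |o| ≤ 1) {k : ℕ} {n m : ℤ} (h : nr o x0 x1 k n m) :
    nr o x0 x1 (k + 1) (n / 2) (m / 2) := nr_iff.2 (wn_up ho (nr_iff.1 h))

open Classical in
/-- **One square, summed over `x1`**, one function on a set `X` of points. -/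
theorem sum_near_le {al : ℕ → ℤ → ℤ → ℤ → Prop} {o x0 : ℤ} {d : ℤ → ℤ → ℝ} {g : ℤ → ℝ} {D : ℝ}
    (hD : 0 ≤ D) {k : ℕ} {n m : ℤ} {X : Finset ℤ}
    (hd : ∀ j, al k j n m → ∀ x ∈ X, ∑ x1 ∈ iv k j, d x1 x ^ 2 ≤ D * 2 ^ k) (I : Finset ℤ) :
    ∑ x1 ∈ I, (if nr o x0 x1 k n m ∧ al k (ix k x1) n m then ∑ x ∈ X, (d x1 x * g x) ^ 2
      else 0) ≤ 17 * D * (2 ^ k * ∑ x ∈ X, g x ^ 2) := by
  have h1 : ∀ x1, (if nr o x0 x1 k n m ∧ al k (ix k x1) n m then ∑ x ∈ X, (d x1 x * g x) ^ 2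
      else 0) = ∑ x ∈ X, (if n ∈ wn o x0 x1 k m ∧ al k (ix k x1) n m then d x1 x ^ 2 else 0) *
        g x ^ 2 := by
    intro x1
    rw [nr_iff]
    split_ifs with h
    · exact sum_congr rfl fun x _ => by ring
    · simp
  rw [sum_congr rfl fun x1 _ => h1 x1, sum_comm, mul_sum, mul_sum]
  refine sum_le_sum fun x hx => ?_
  rw [← sum_mul, ← mul_assoc]
  refine mul_le_mul_of_nonneg_right ?_ (sq_nonneg _)
  exact sum_wn_le (fun _ => sq_nonneg _) hD (fun j hj => hd j hj x hx) I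

/-! ### The birth squares -/

open Classical in
/-- a sum over the birth squares under the root -/
def rE (rs : ℕ → ℤ → ℤ → Prop) (K : ℕ) (R S : ℤ) (v : ℕ → ℤ → ℤ → ℝ) : ℝ :=
  ∑ k ∈ range (K + 1), ∑ n ∈ iv (K - k) R, ∑ m ∈ iv (K - k) S, if rs k n m then v k n m else 0

theorem rE_mono {rs : ℕ → ℤ → ℤ → Prop} {K : ℕ} {R S : ℤ} {v w : ℕ → ℤ → ℤ → ℝ}
    (h : ∀ k ≤ K, ∀ n ∈ iv (K - k) R, ∀ m ∈ iv (K - k) S, rs k n m → v k n m ≤ w k n m) :
    rE rs K R S v ≤ rE rs K R S w := by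
  classical
  unfold rE
  refine sum_le_sum fun k hk => sum_le_sum fun n hn => sum_le_sum fun m hm => ?_
  rw [mem_range] at hk
  split_ifs with hr
  · exact h k (by omega) n hn m hm hr
  · exact le_rfl

theorem rE_mul {rs : ℕ → ℤ → ℤ → Prop} {K : ℕ} {R S : ℤ} (a : ℝ) (v : ℕ → ℤ → ℤ → ℝ) :
    rE rs K R S (fun k n m => a * v k n m) = a * rE rs K R S v := by
  classical
  unfold rE
  simp only [mul_sum]
  refine sum_congr rfl fun k _ => sum_congr rfl fun n _ => sum_congr rfl fun m _ => ?_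
  split_ifs <;> simp

/-- the energies at the birth squares through the area -/
theorem rE_le_area {rs us : ℕ → ℤ → ℤ → Prop} {K : ℕ} {R S : ℤ} {A : ℤ → ℤ → ℝ} {Λ : ℝ}
    (hrs : ∀ k n m, rs k n m → us k n m)
    (hA : ∀ k n m, us k n m → E2 (iv k n) (iv k m) A ≤ Λ * 4 ^ k) :
    rE rs K R S (fun k n m => E2 (iv k n) (iv k m) A) ≤ Λ * rE rs K R S fun k _ _ => 4 ^ k := by
  rw [← rE_mul]
  exact rE_mono fun k _ n _ m _ h => hA k n m (hrs k n m h)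

/-- a sum over components born at squares under the root -/
theorem sum_born_le {rs : ℕ → ℤ → ℤ → Prop} {K : ℕ} {R S : ℤ} {F : ℕ × ℤ × ℤ → ℝ}
    (hF : ∀ i, 0 ≤ F i) {T : Finset (ℕ × ℤ × ℤ)}
    (hT : ∀ i ∈ T, i.1 ≤ K ∧ ix i.1 i.2.1 ∈ iv (K - i.1) R ∧ i.2.2 ∈ iv (K - i.1) S ∧
      rs i.1 (ix i.1 i.2.1) i.2.2) :
    ∑ i ∈ T, F i ≤ rE rs K R S fun k n m => ∑ i ∈ cset k n m, F i := by
  classical
  unfold rE
  have h1 : T ⊆ (range (K + 1)).biUnion fun k => (iv (K - k) R).biUnion fun n =>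
      ((iv (K - k) S).filter fun m => rs k n m).biUnion fun m => cset k n m := by
    intro i hi
    obtain ⟨h2, h3, h4, h5⟩ := hT i hi
    rw [mem_biUnion]
    refine ⟨i.1, mem_range.2 (by omega), ?_⟩
    rw [mem_biUnion]
    refine ⟨ix i.1 i.2.1, h3, ?_⟩
    rw [mem_biUnion]
    exact ⟨i.2.2, mem_filter.2 ⟨h4, h5⟩, mem_cset.2 ⟨rfl, rfl, rfl⟩⟩
  refine (sum_le_sum_of_subset_of_nonneg h1 fun i _ _ => hF i).trans ?_
  refine (sum_bU_le _ _ hF).trans (sum_le_sum fun k _ => ?_)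
  refine (sum_bU_le _ _ hF).trans (sum_le_sum fun n _ => ?_)
  refine (sum_bU_le _ _ hF).trans ?_
  rw [sum_filter]

variable {A : ℤ → ℤ → ℝ} {c : ℝ} {rs : ℕ → ℤ → ℤ → Prop} {K : ℕ} {R S : ℤ}
  {al : ℕ → ℤ → ℤ → ℤ → Prop} {act : ℕ → ℤ → ℤ → Finset (ℕ × ℤ × ℤ)} {o x0 : ℤ}
  {d : ℤ → ℤ → ℝ} {D : ℝ}

open Classical in
/-- **The components born near the fibre, first functions, summed over `x1`.** -/
theorem birthsA_z (hc : 0 ≤ c) (hD : 0 ≤ D)
    (hact : ∀ k n m i, i ∈ act k n m → i.1 = k → rs k n m ∧ i ∈ cset k n m)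
    (hal : ∀ k j n m, al k j n m → k ≤ K ∧ n ∈ iv (K - k) R ∧ m ∈ iv (K - k) S)
    (hd : ∀ k j n m, al k j n m → ∀ x ∈ iv k n, ∑ x1 ∈ iv k j, d x1 x ^ 2 ≤ D * 2 ^ k)
    (T : Finset (ℕ × ℤ × ℤ)) (X I : Finset ℤ) :
    ∑ x1 ∈ I, ∑ i ∈ T, ∑ x ∈ X.filter (fun x => ∃ m, nr o x0 x1 i.1 (ix i.1 x) m ∧
      i ∈ act i.1 (ix i.1 x) m ∧ al i.1 (ix i.1 x1) (ix i.1 x) m), (d x1 x * comA A c i x) ^ 2 ≤
      17 * D * (c / 2 * rE rs K R S fun k n m => E2 (iv k n) (iv k m) A) := by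
  set F : ℕ × ℤ × ℤ → ℝ := fun i =>
    17 * D * (2 ^ i.1 * ∑ x ∈ iv i.1 (ix i.1 i.2.1), comA A c i x ^ 2) with hF
  have hF0 : ∀ i, 0 ≤ F i := fun i =>
    mul_nonneg (by positivity) (mul_nonneg (by positivity) (sum_nonneg fun _ _ => sq_nonneg _))
  set T' := T.filter fun i => i.1 ≤ K ∧ ix i.1 i.2.1 ∈ iv (K - i.1) R ∧ i.2.2 ∈ iv (K - i.1) S ∧
    rs i.1 (ix i.1 i.2.1) i.2.2 with hT'
  rw [sum_comm]
  have h1 : ∀ i ∈ T, ∑ x1 ∈ I, ∑ x ∈ X.filter (fun x => ∃ m, nr o x0 x1 i.1 (ix i.1 x) m ∧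
      i ∈ act i.1 (ix i.1 x) m ∧ al i.1 (ix i.1 x1) (ix i.1 x) m), (d x1 x * comA A c i x) ^ 2 ≤
      if i.1 ≤ K ∧ ix i.1 i.2.1 ∈ iv (K - i.1) R ∧ i.2.2 ∈ iv (K - i.1) S ∧
        rs i.1 (ix i.1 i.2.1) i.2.2 then F i else 0 := by
    intro i _
    have key : ∀ x1 x m, i ∈ act i.1 (ix i.1 x) m → al i.1 (ix i.1 x1) (ix i.1 x) m →
        ix i.1 x = ix i.1 i.2.1 ∧ m = i.2.2 ∧ (i.1 ≤ K ∧ ix i.1 i.2.1 ∈ iv (K - i.1) R ∧
          i.2.2 ∈ iv (K - i.1) S ∧ rs i.1 (ix i.1 i.2.1) i.2.2) := by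
      intro x1 x m h2 h3
      obtain ⟨h4, h5⟩ := hact _ _ _ _ h2 rfl
      obtain ⟨_, h6, h7⟩ := mem_cset.1 h5
      obtain ⟨h8, h9, h10⟩ := hal _ _ _ _ h3
      rw [← h6] at h4 h9
      rw [← h7] at h4 h10
      exact ⟨h6.symm, h7.symm, h8, h9, h10, h4⟩
    split_ifs with hi
    · refine le_trans ?_ (sum_near_le (al := al) (o := o) (x0 := x0) (d := d)
        (g := fun x => comA A c i x) (k := i.1) (n := ix i.1 i.2.1) (m := i.2.2)
        (X := iv i.1 (ix i.1 i.2.1)) hD (fun j hj x hx => hd _ _ _ _ hj x hx) I)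
      refine sum_le_sum fun x1 _ => ?_
      split_ifs with hn
      · refine sum_le_sum_of_subset_of_nonneg ?_ fun _ _ _ => sq_nonneg _
        intro x hx
        rw [mem_filter] at hx
        obtain ⟨_, m, _, h2, h3⟩ := hx
        exact mem_iv.2 (key x1 x m h2 h3).1
      · refine (sum_eq_zero fun x hx => ?_).le
        exfalso
        rw [mem_filter] at hx
        obtain ⟨_, m, h1, h2, h3⟩ := hx
        obtain ⟨h4, h5, _⟩ := key x1 x m h2 h3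
        rw [h4, h5] at h1 h3
        exact hn ⟨h1, h3⟩
    · refine (sum_eq_zero fun x1 _ => sum_eq_zero fun x hx => ?_).le
      exfalso
      rw [mem_filter] at hx
      obtain ⟨_, m, _, h2, h3⟩ := hx
      exact hi (key x1 x m h2 h3).2.2
  refine (sum_le_sum h1).trans ?_
  rw [← sum_filter, ← hT']
  refine (sum_born_le (rs := rs) (K := K) (R := R) (S := S) hF0 fun i hi =>
    (mem_filter.1 hi).2).trans ?_
  rw [← rE_mul, ← rE_mul]
  refine rE_mono fun k _ n _ m _ _ => ?_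
  simp only [hF]
  rw [← mul_sum]
  refine mul_le_mul_of_nonneg_left ?_ (by positivity)
  refine le_trans (le_of_eq ?_) (sum_cset_A hc k n m)
  rw [mul_sum]
  refine sum_congr rfl fun i hi => ?_
  obtain ⟨h2, h3, _⟩ := mem_cset.1 hi
  rw [h2, h3]

open Classical in
/-- **The components born near the fibre, second functions, summed over `x1`.** -/
theorem birthsB_z (hc : 0 ≤ c) (hD : 0 ≤ D)
    (hact : ∀ k n m i, i ∈ act k n m → i.1 = k → rs k n m ∧ i ∈ cset k n m)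
    (hal : ∀ k j n m, al k j n m → k ≤ K ∧ n ∈ iv (K - k) R ∧ m ∈ iv (K - k) S)
    (hd : ∀ k j n m, al k j n m → ∀ x ∈ iv k m, ∑ x1 ∈ iv k j, d x1 x ^ 2 ≤ D * 2 ^ k)
    (T : Finset (ℕ × ℤ × ℤ)) (X I : Finset ℤ) :
    ∑ x1 ∈ I, ∑ i ∈ T, ∑ x ∈ X.filter (fun x => ∃ n, nr o x0 x1 i.1 n (ix i.1 x) ∧
      i ∈ act i.1 n (ix i.1 x) ∧ al i.1 (ix i.1 x1) n (ix i.1 x)), (d x1 x * comB A c i x) ^ 2 ≤
      17 * D * rE rs K R S fun k n m => E2 (iv k n) (iv k m) A := by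
  set F : ℕ × ℤ × ℤ → ℝ := fun i =>
    17 * D * (2 ^ i.1 * ∑ x ∈ iv i.1 i.2.2, comB A c i x ^ 2) with hF
  have hF0 : ∀ i, 0 ≤ F i := fun i =>
    mul_nonneg (by positivity) (mul_nonneg (by positivity) (sum_nonneg fun _ _ => sq_nonneg _))
  set T' := T.filter fun i => i.1 ≤ K ∧ ix i.1 i.2.1 ∈ iv (K - i.1) R ∧ i.2.2 ∈ iv (K - i.1) S ∧
    rs i.1 (ix i.1 i.2.1) i.2.2 with hT'
  rw [sum_comm]
  have h1 : ∀ i ∈ T, ∑ x1 ∈ I, ∑ x ∈ X.filter (fun x => ∃ n, nr o x0 x1 i.1 n (ix i.1 x) ∧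
      i ∈ act i.1 n (ix i.1 x) ∧ al i.1 (ix i.1 x1) n (ix i.1 x)), (d x1 x * comB A c i x) ^ 2 ≤
      if i.1 ≤ K ∧ ix i.1 i.2.1 ∈ iv (K - i.1) R ∧ i.2.2 ∈ iv (K - i.1) S ∧
        rs i.1 (ix i.1 i.2.1) i.2.2 then F i else 0 := by
    intro i _
    have key : ∀ x1 x n, i ∈ act i.1 n (ix i.1 x) → al i.1 (ix i.1 x1) n (ix i.1 x) →
        n = ix i.1 i.2.1 ∧ ix i.1 x = i.2.2 ∧ (i.1 ≤ K ∧ ix i.1 i.2.1 ∈ iv (K - i.1) R ∧
          i.2.2 ∈ iv (K - i.1) S ∧ rs i.1 (ix i.1 i.2.1) i.2.2) := by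
      intro x1 x n h2 h3
      obtain ⟨h4, h5⟩ := hact _ _ _ _ h2 rfl
      obtain ⟨_, h6, h7⟩ := mem_cset.1 h5
      obtain ⟨h8, h9, h10⟩ := hal _ _ _ _ h3
      rw [← h6] at h4 h9
      rw [← h7] at h4 h10
      exact ⟨h6.symm, h7.symm, h8, h9, h10, h4⟩
    split_ifs with hi
    · refine le_trans ?_ (sum_near_le (al := al) (o := o) (x0 := x0) (d := d)
        (g := fun x => comB A c i x) (k := i.1) (n := ix i.1 i.2.1) (m := i.2.2)
        (X := iv i.1 i.2.2) hD (fun j hj x hx => hd _ _ _ _ hj x hx) I)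
      refine sum_le_sum fun x1 _ => ?_
      split_ifs with hn
      · refine sum_le_sum_of_subset_of_nonneg ?_ fun _ _ _ => sq_nonneg _
        intro x hx
        rw [mem_filter] at hx
        obtain ⟨_, n, _, h2, h3⟩ := hx
        exact mem_iv.2 (key x1 x n h2 h3).2.1
      · refine (sum_eq_zero fun x hx => ?_).le
        exfalso
        rw [mem_filter] at hx
        obtain ⟨_, n, h1, h2, h3⟩ := hx
        obtain ⟨h4, h5, _⟩ := key x1 x n h2 h3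
        rw [h4, h5] at h1 h3
        exact hn ⟨h1, h3⟩
    · refine (sum_eq_zero fun x1 _ => sum_eq_zero fun x hx => ?_).le
      exfalso
      rw [mem_filter] at hx
      obtain ⟨_, n, _, h2, h3⟩ := hx
      exact hi (key x1 x n h2 h3).2.2
  refine (sum_le_sum h1).trans ?_
  rw [← sum_filter, ← hT']
  refine (sum_born_le (rs := rs) (K := K) (R := R) (S := S) hF0 fun i hi =>
    (mem_filter.1 hi).2).trans ?_
  rw [← rE_mul]
  refine rE_mono fun k _ n _ m _ _ => ?_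
  simp only [hF]
  rw [← mul_sum]
  refine mul_le_mul_of_nonneg_left ?_ (by positivity)
  refine le_trans (le_of_eq ?_) (sum_cset_B hc k n m)
  rw [mul_sum]
  refine sum_congr rfl fun i hi => ?_
  obtain ⟨h2, _, h4⟩ := mem_cset.1 hi
  rw [h2, h4]

end

end Vale.Agent.P141.H97b
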