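import Vale.Agent.P141.H97b.Frame
import Vale.Agent.P141.H443.Frame
import Vale.Agent.P141.H337.Ridge3

/-!
# P141, line W, end lemma (E-FR): the dropped mass is paid by the births

* `drop_add`, `drop_le_birth`: for any tree of index sets the total dropped mass is at most the
  mass of the root and the mass of the births;
* `win`: the active sets on the cells of one variable, `x0` and `x1` fixed: the union over a window
  of squares around the matched one; `win_birth`: new components appear at the resets only;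
* `sum_birth_le`, `sum_top_le`: the births and the root after the sum over `x1`;
* `dropB_le`, `dropA_le`: the dropped mass of the frames of one plane.
-/

namespace Vale.Agent.P141.H97b

open Finset Vale.Agent.P141.PL Vale.Agent.P141.PL.H317
open Vale.Agent.P141.PL.H315 (avg)
open Vale.Agent.P141.H443 hiding us_of_reset fa_row fb_col
open Vale.Agent.P141.H337

noncomputable section

/-! ### The dropped mass and the births -/

section tree

variable {Ω : Type*} [DecidableEq Ω]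

/-- the mass born at the cell `(k, b)` -/
def bm (c : Ω → ℤ → ℝ) (A : ℕ → ℤ → Finset Ω) (k : ℕ) (b : ℤ) : ℝ :=
  ms c (A k b \ A (k + 1) (b / 2)) (ivm k b)

omit [DecidableEq Ω] in
theorem ivm_eq (k : ℕ) (b : ℤ) : ivm k b = iv k b := rfl

omit [DecidableEq Ω] in
theorem avg_ivm_two (k : ℕ) (b : ℤ) (f : ℤ → ℝ) :
    2 * avg (ivm (k + 1) b) f = avg (ivm k (2 * b)) f + avg (ivm k (2 * b + 1)) f := by
  unfold avg
  rw [ivm_eq, ivm_eq, ivm_eq, card_iv, card_iv, card_iv, iv_split, pow_succ]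
  push_cast
  field_simp

omit [DecidableEq Ω] in
theorem ms_two (c : Ω → ℤ → ℝ) (D : Finset Ω) (k : ℕ) (b : ℤ) :
    2 * ms c D (ivm (k + 1) b) = ms c D (ivm k (2 * b)) + ms c D (ivm k (2 * b + 1)) := by
  unfold ms
  rw [mul_sum, ← sum_add_distrib]
  exact sum_congr rfl fun i _ => avg_ivm_two k b _

theorem ms_exch (c : Ω → ℤ → ℝ) (A B : Finset Ω) (J : Finset ℤ) :
    ms c A J + ms c (B \ A) J = ms c B J + ms c (A \ B) J := by
  unfold ms
  have h1 := sum_inter_add_sum_sdiff A B fun i => avg J (fun x => c i x ^ 2)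
  have h2 := sum_inter_add_sum_sdiff B A fun i => avg J (fun x => c i x ^ 2)
  rw [inter_comm] at h2
  linarith

/-- the alive mass at a scale -/
def am (c : Ω → ℤ → ℝ) (A : ℕ → ℤ → Finset Ω) (K : ℕ) (b0 : ℤ) (k : ℕ) : ℝ :=
  ∑ b ∈ cel K b0 k, 2 ^ k * ms c (A k b) (ivm k b)

omit [DecidableEq Ω] in
theorem am_nonneg (c : Ω → ℤ → ℝ) (A : ℕ → ℤ → Finset Ω) (K : ℕ) (b0 : ℤ) (k : ℕ) :
    0 ≤ am c A K b0 k :=
  sum_nonneg fun _ _ => mul_nonneg (by positivity) (ms_nonneg _ _ _)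

theorem am_step (c : Ω → ℤ → ℝ) (A : ℕ → ℤ → Finset Ω) {K : ℕ} (b0 : ℤ) {k : ℕ} (hk : k < K) :
    am c A K b0 k + ∑ b ∈ cel K b0 k, 2 ^ k * dm c A k b =
      am c A K b0 (k + 1) + ∑ b ∈ cel K b0 k, 2 ^ k * bm c A k b := by
  have h1 : ∑ b ∈ cel K b0 k, (2 : ℝ) ^ k * ms c (A (k + 1) (b / 2)) (ivm k b) =
      am c A K b0 (k + 1) := by
    unfold am
    rw [sum_cel hk]
    refine sum_congr rfl fun b _ => ?_
    have e1 : 2 * b / 2 = b := by omega
    have e2 : (2 * b + 1) / 2 = b := by omega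
    rw [e1, e2, pow_succ, mul_assoc, ms_two]
    ring
  rw [← h1]
  unfold am dm bm
  rw [← sum_add_distrib, ← sum_add_distrib]
  refine sum_congr rfl fun b _ => ?_
  rw [← mul_add, ← mul_add, ms_exch]

/-- **The balance of the alive mass.** -/
theorem drop_add (c : Ω → ℤ → ℝ) (A : ℕ → ℤ → Finset Ω) (K : ℕ) (b0 : ℤ) :
    am c A K b0 0 + ∑ k ∈ range K, ∑ b ∈ cel K b0 k, 2 ^ k * dm c A k b =
      am c A K b0 K + ∑ k ∈ range K, ∑ b ∈ cel K b0 k, 2 ^ k * bm c A k b := by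
  have key : ∀ m ≤ K, am c A K b0 0 + ∑ k ∈ range m, ∑ b ∈ cel K b0 k, 2 ^ k * dm c A k b =
      am c A K b0 m + ∑ k ∈ range m, ∑ b ∈ cel K b0 k, 2 ^ k * bm c A k b := by
    intro m
    induction m with
    | zero => intro _; simp
    | succ m ih =>
      intro hm
      have h1 := ih (by omega)
      have h2 := am_step c A b0 (by omega : m < K)
      rw [sum_range_succ, sum_range_succ]
      linarith
  exact key K le_rfl

/-- **The dropped mass is at most the mass of the root and of the births.** -/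
theorem drop_le_birth (c : Ω → ℤ → ℝ) (A : ℕ → ℤ → Finset Ω) (K : ℕ) (b0 : ℤ) :
    ∑ k ∈ range K, ∑ b ∈ cel K b0 k, 2 ^ k * dm c A k b ≤
      2 ^ K * ms c (A K b0) (ivm K b0) +
        ∑ k ∈ range K, ∑ b ∈ cel K b0 k, 2 ^ k * bm c A k b := by
  have h1 := drop_add c A K b0
  have h2 := am_nonneg c A K b0 0
  have h3 : am c A K b0 K = 2 ^ K * ms c (A K b0) (ivm K b0) := by
    unfold am cel
    have e : Ico ((2 : ℤ) ^ (K - K) * b0) (2 ^ (K - K) * (b0 + 1)) = {b0} := by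
      ext z
      rw [Nat.sub_self, mem_Ico, mem_singleton]
      omega
    rw [e, sum_singleton]
  rw [h3] at h1
  linarith

end tree

/-! ### The windows -/

theorem sum_bU_le {α β : Type*} [DecidableEq β] (s : Finset α) (t : α → Finset β) {f : β → ℝ}
    (hf : ∀ x, 0 ≤ f x) : ∑ x ∈ s.biUnion t, f x ≤ ∑ a ∈ s, ∑ x ∈ t a, f x := by
  classical
  induction s using Finset.induction_on with
  | empty => simp
  | insert a s ha ih =>
    rw [biUnion_insert, sum_insert ha]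
    have h := sum_union_inter (s₁ := t a) (s₂ := s.biUnion t) (f := f)
    have h2 : 0 ≤ ∑ x ∈ t a ∩ s.biUnion t, f x := sum_nonneg fun x _ => hf x
    linarith

section window

variable {ι : Type*} [DecidableEq ι]

/-- the matched cell: `ix k x0 + ix k x1 + n + b = o - 2` -/
def mt (o x0 x1 : ℤ) (k : ℕ) (b : ℤ) : ℤ := o - 2 - ix k x0 - ix k x1 - b

/-- the window around the matched cell -/
def wn (o x0 x1 : ℤ) (k : ℕ) (b : ℤ) : Finset ℤ :=
  Icc (mt o x0 x1 k b - 8) (mt o x0 x1 k b + 8)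

theorem self_mem_wn (o x0 x1 : ℤ) (k : ℕ) (b : ℤ) : mt o x0 x1 k b ∈ wn o x0 x1 k b := by
  unfold wn; rw [mem_Icc]; omega

theorem wn_up {o x0 x1 : ℤ} (ho : |o| ≤ 1) {k : ℕ} {b n : ℤ} (h : n ∈ wn o x0 x1 k b) :
    n / 2 ∈ wn o x0 x1 (k + 1) (b / 2) := by
  unfold wn mt at *
  rw [mem_Icc] at *
  rw [abs_le] at ho
  have h0 : ix (k + 1) x0 = ix k x0 / 2 := by
    have := ix_ix k 1 x0
    rw [← this]
    unfold ix; norm_num
  have h1 : ix (k + 1) x1 = ix k x1 / 2 := by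
    have := ix_ix k 1 x1
    rw [← this]
    unfold ix; norm_num
  rw [h0, h1]
  omega

open Classical in
/-- **the active set on a cell of one variable** -/
def win (act : ℕ → ℤ → ℤ → Finset ι) (al : ℕ → ℤ → ℤ → ℤ → Prop) (o x0 x1 : ℤ) (k : ℕ)
    (b : ℤ) : Finset ι :=
  ((wn o x0 x1 k b).filter fun n => al k (ix k x1) n b).biUnion fun n => act k n b

theorem mem_win {act : ℕ → ℤ → ℤ → Finset ι} {al : ℕ → ℤ → ℤ → ℤ → Prop} {o x0 x1 : ℤ} {k : ℕ}
    {b : ℤ} {i : ι} : i ∈ win act al o x0 x1 k b ↔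
      ∃ n ∈ wn o x0 x1 k b, al k (ix k x1) n b ∧ i ∈ act k n b := by
  classical
  unfold win
  simp only [mem_biUnion, mem_filter, and_assoc]

/-- the active set of the matched square -/
theorem act_sub_win {act : ℕ → ℤ → ℤ → Finset ι} {al : ℕ → ℤ → ℤ → ℤ → Prop} {o x0 x1 : ℤ}
    {k : ℕ} {b n : ℤ} (hn : n ∈ wn o x0 x1 k b) (ha : al k (ix k x1) n b) :
    act k n b ⊆ win act al o x0 x1 k b := fun _ hi => mem_win.2 ⟨n, hn, ha, hi⟩

/-- **New components appear at the resets only.** -/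
theorem win_birth {act : ℕ → ℤ → ℤ → Finset ι} {rs : ℕ → ℤ → ℤ → Prop}
    {al : ℕ → ℤ → ℤ → ℤ → Prop} {o x0 x1 : ℤ} (ho : |o| ≤ 1) {k : ℕ} {b : ℤ}
    (hact : ∀ n, al k (ix k x1) n b → ¬ rs k n b → act k n b ⊆ act (k + 1) (n / 2) (b / 2))
    (hal : ∀ j n, al k j n b → al (k + 1) (j / 2) (n / 2) (b / 2)) {i : ι}
    (hi : i ∈ win act al o x0 x1 k b \ win act al o x0 x1 (k + 1) (b / 2)) :
    ∃ n ∈ wn o x0 x1 k b, al k (ix k x1) n b ∧ rs k n b ∧ i ∈ act k n b := by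
  rw [mem_sdiff] at hi
  obtain ⟨h1, h2⟩ := hi
  obtain ⟨n, hn, ha, hin⟩ := mem_win.1 h1
  refine ⟨n, hn, ha, ?_, hin⟩
  by_contra hr
  refine h2 (mem_win.2 ⟨n / 2, wn_up ho hn, ?_, hact n ha hr hin⟩)
  have e : ix (k + 1) x1 = ix k x1 / 2 := by
    have := ix_ix k 1 x1
    rw [← this]
    unfold ix; norm_num
  rw [e]
  exact hal _ _ ha

/-! ### The sum over `x1` -/

/-- the cells `j` of `x1` for which `n` is in the window of `b` -/
def jw (o x0 : ℤ) (k : ℕ) (n b : ℤ) : Finset ℤ :=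
  Icc (o - 2 - ix k x0 - b - n - 8) (o - 2 - ix k x0 - b - n + 8)

theorem card_jw (o x0 : ℤ) (k : ℕ) (n b : ℤ) : (jw o x0 k n b).card = 17 := by
  unfold jw
  rw [Int.card_Icc]
  omega

theorem mem_jw {o x0 x1 : ℤ} {k : ℕ} {n b : ℤ} (h : n ∈ wn o x0 x1 k b) :
    ix k x1 ∈ jw o x0 k n b := by
  unfold wn mt at h
  unfold jw
  rw [mem_Icc] at *
  omega

/-- the sum over `x1` of the weights in the windows of a square -/
theorem sum_wn_le {al : ℕ → ℤ → ℤ → ℤ → Prop} {o x0 : ℤ} {k : ℕ} {n b : ℤ} {w : ℤ → ℝ}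
    (hw : ∀ x, 0 ≤ w x) {D : ℝ} (hD : 0 ≤ D)
    (hd : ∀ j, al k j n b → ∑ x1 ∈ iv k j, w x1 ≤ D * 2 ^ k) (I : Finset ℤ)
    [∀ x1 : ℤ, Decidable (n ∈ wn o x0 x1 k b ∧ al k (ix k x1) n b)] :
    ∑ x1 ∈ I, (if n ∈ wn o x0 x1 k b ∧ al k (ix k x1) n b then w x1 else 0) ≤
      17 * D * 2 ^ k := by
  classical
  rw [← sum_filter]
  have h1 : (I.filter fun x1 => n ∈ wn o x0 x1 k b ∧ al k (ix k x1) n b) ⊆
      ((jw o x0 k n b).filter fun j => al k j n b).biUnion fun j => iv k j := by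
    intro x1 hx
    rw [mem_filter] at hx
    rw [mem_biUnion]
    exact ⟨ix k x1, mem_filter.2 ⟨mem_jw hx.2.1, hx.2.2⟩, self_mem_iv k x1⟩
  refine (sum_le_sum_of_subset_of_nonneg h1 fun x _ _ => hw x).trans ?_
  refine (sum_bU_le _ _ hw).trans ?_
  refine (sum_le_card_nsmul _ _ (D * 2 ^ k) fun j hj => hd j (mem_filter.1 hj).2).trans ?_
  rw [nsmul_eq_mul]
  have h2 : (((jw o x0 k n b).filter fun j => al k j n b).card : ℝ) ≤ 17 := by
    have h3 := card_filter_le (jw o x0 k n b) fun j => al k j n b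
    rw [card_jw] at h3
    exact_mod_cast h3
  have h3 : 0 ≤ D * 2 ^ k := by positivity
  nlinarith

/-- the functions at `x1`: the edge times the components -/
def cz (d : ℤ → ℤ → ℝ) (f : ι → ℤ → ℝ) (x1 : ℤ) (i : ι) (x : ℤ) : ℝ := d x1 x * f i x

variable {act : ℕ → ℤ → ℤ → Finset ι} {rs : ℕ → ℤ → ℤ → Prop} {al : ℕ → ℤ → ℤ → ℤ → Prop}
  {o x0 : ℤ} {d : ℤ → ℤ → ℝ} {f : ι → ℤ → ℝ} {D : ℝ}

open Classical in
omit [DecidableEq ι] in
/-- the components of one square, summed over `x1` -/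
theorem sum_act_le (hD : 0 ≤ D) {k : ℕ} {n b : ℤ} (S : Finset ι)
    (hd : ∀ j, al k j n b → ∀ x ∈ iv k b, ∑ x1 ∈ iv k j, d x1 x ^ 2 ≤ D * 2 ^ k) (I : Finset ℤ) :
    ∑ x1 ∈ I, (if n ∈ wn o x0 x1 k b ∧ al k (ix k x1) n b then
      ms (cz d f x1) S (ivm k b) else 0) ≤
      17 * D * ∑ i ∈ S, ∑ x ∈ iv k b, f i x ^ 2 := by
  have h1 : ∀ x1, (if n ∈ wn o x0 x1 k b ∧ al k (ix k x1) n b then
      ms (cz d f x1) S (ivm k b) else 0) = ∑ i ∈ S, (2 ^ k : ℝ)⁻¹ * ∑ x ∈ iv k b,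
        (if n ∈ wn o x0 x1 k b ∧ al k (ix k x1) n b then d x1 x ^ 2 else 0) * f i x ^ 2 := by
    intro x1
    split_ifs with h
    · unfold ms avg cz
      refine sum_congr rfl fun i _ => ?_
      rw [ivm_eq, card_iv]
      push_cast
      congr 1
      exact sum_congr rfl fun x _ => by ring
    · simp
  rw [sum_congr rfl fun x1 _ => h1 x1, sum_comm, mul_sum]
  refine sum_le_sum fun i _ => ?_
  rw [← mul_sum, sum_comm]
  have h2 : ∑ x ∈ iv k b, ∑ x1 ∈ I,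
      (if n ∈ wn o x0 x1 k b ∧ al k (ix k x1) n b then d x1 x ^ 2 else 0) * f i x ^ 2 ≤
      ∑ x ∈ iv k b, 17 * D * 2 ^ k * f i x ^ 2 := by
    refine sum_le_sum fun x hx => ?_
    rw [← sum_mul]
    refine mul_le_mul_of_nonneg_right ?_ (sq_nonneg _)
    exact sum_wn_le (fun _ => sq_nonneg _) hD (fun j hj => hd j hj x hx) I
  calc (2 ^ k : ℝ)⁻¹ * _ ≤ (2 ^ k : ℝ)⁻¹ * ∑ x ∈ iv k b, 17 * D * 2 ^ k * f i x ^ 2 :=
        mul_le_mul_of_nonneg_left h2 (by positivity)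
    _ = 17 * D * ∑ x ∈ iv k b, f i x ^ 2 := by
        rw [← mul_sum]
        field_simp

open Classical in
omit [DecidableEq ι] in
/-- a set of components covered by the sets of the squares of the window -/
theorem ms_cover (c : ι → ℤ → ℝ) {x1 : ℤ} {k : ℕ} {b : ℤ} {S : Finset ι} {N : Finset ℤ}
    (P : ℤ → Prop) (hN : ∀ n, al k (ix k x1) n b → P n → n ∈ N)
    (hS : ∀ i ∈ S, ∃ n ∈ wn o x0 x1 k b, al k (ix k x1) n b ∧ P n ∧ i ∈ act k n b)
    (J : Finset ℤ) :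
    ms c S J ≤ ∑ n ∈ N, if n ∈ wn o x0 x1 k b ∧ al k (ix k x1) n b then
      ms c (act k n b) J else 0 := by
  have hp : ∀ i, 0 ≤ avg J fun x => c i x ^ 2 := fun i =>
    Vale.Agent.P141.PL.H315.avg_nonneg fun _ _ => sq_nonneg _
  rw [← sum_filter]
  have h1 : S ⊆ (N.filter fun n => n ∈ wn o x0 x1 k b ∧ al k (ix k x1) n b).biUnion
      fun n => act k n b := by
    intro i hi
    obtain ⟨n, hn, ha, hP, hin⟩ := hS i hi
    exact mem_biUnion.2 ⟨n, mem_filter.2 ⟨hN n ha hP, hn, ha⟩, hin⟩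
  unfold ms
  exact (sum_le_sum_of_subset_of_nonneg h1 fun i _ _ => hp i).trans (sum_bU_le _ _ hp)

/-- **The births at a cell, summed over `x1`.** -/
theorem sum_birth_le (ho : |o| ≤ 1) (hD : 0 ≤ D) {k : ℕ} {b : ℤ} {N : Finset ℤ}
    (hN : ∀ j n, al k j n b → rs k n b → n ∈ N)
    (hact : ∀ j n, al k j n b → ¬ rs k n b → act k n b ⊆ act (k + 1) (n / 2) (b / 2))
    (hal : ∀ j n, al k j n b → al (k + 1) (j / 2) (n / 2) (b / 2))
    (hd : ∀ j n, al k j n b → ∀ x ∈ iv k b, ∑ x1 ∈ iv k j, d x1 x ^ 2 ≤ D * 2 ^ k)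
    (I : Finset ℤ) :
    ∑ x1 ∈ I, bm (cz d f x1) (win act al o x0 x1) k b ≤
      17 * D * ∑ n ∈ N, ∑ i ∈ act k n b, ∑ x ∈ iv k b, f i x ^ 2 := by
  classical
  have h1 : ∀ x1, bm (cz d f x1) (win act al o x0 x1) k b ≤
      ∑ n ∈ N, if n ∈ wn o x0 x1 k b ∧ al k (ix k x1) n b then
        ms (cz d f x1) (act k n b) (ivm k b) else 0 := by
    intro x1
    unfold bm
    refine ms_cover (cz d f x1) (fun n => rs k n b) (fun n h1 h2 => hN _ n h1 h2)
      (fun i hi => ?_) _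
    exact win_birth ho (hact _) hal hi
  refine (sum_le_sum fun x1 _ => h1 x1).trans ?_
  rw [sum_comm, mul_sum]
  exact sum_le_sum fun n _ => sum_act_le hD _ (fun j hj => hd j n hj) I

/-- **The root, summed over `x1`.** -/
theorem sum_top_le (hD : 0 ≤ D) {K : ℕ} {R S : ℤ} (hN : ∀ j n, al K j n S → n = R)
    (hd : ∀ j n, al K j n S → ∀ x ∈ iv K S, ∑ x1 ∈ iv K j, d x1 x ^ 2 ≤ D * 2 ^ K)
    (I : Finset ℤ) :
    ∑ x1 ∈ I, ms (cz d f x1) (win act al o x0 x1 K S) (ivm K S) ≤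
      17 * D * ∑ i ∈ act K R S, ∑ x ∈ iv K S, f i x ^ 2 := by
  classical
  have h1 : ∀ x1, ms (cz d f x1) (win act al o x0 x1 K S) (ivm K S) ≤
      ∑ n ∈ ({R} : Finset ℤ), if n ∈ wn o x0 x1 K S ∧ al K (ix K x1) n S then
        ms (cz d f x1) (act K n S) (ivm K S) else 0 := by
    intro x1
    refine ms_cover (cz d f x1) (fun _ => True) (fun n h1 _ => mem_singleton.2 (hN _ n h1))
      (fun i hi => ?_) _
    obtain ⟨n, h1, h2, h3⟩ := mem_win.1 hi
    exact ⟨n, h1, h2, trivial, h3⟩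
  refine (sum_le_sum fun x1 _ => h1 x1).trans ?_
  rw [sum_comm, sum_singleton]
  exact sum_act_le hD _ (fun j hj => hd j R hj) I

/-- the mass of the root and of all the births -/
def tb (c : ι → ℤ → ℝ) (A : ℕ → ℤ → Finset ι) (K : ℕ) (b0 : ℤ) : ℝ :=
  2 ^ K * ms c (A K b0) (ivm K b0) + ∑ k ∈ range K, ∑ b ∈ cel K b0 k, 2 ^ k * bm c A k b

theorem drop_le_tb (c : ι → ℤ → ℝ) (A : ℕ → ℤ → Finset ι) (K : ℕ) (b0 : ℤ) :
    ∑ k ∈ range K, ∑ b ∈ cel K b0 k, 2 ^ k * dm c A k b ≤ tb c A K b0 := drop_le_birth c A K b0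

/-- **The mass of the root and of the births, summed over `x1`.** -/
theorem sum_tb_le (ho : |o| ≤ 1) (hD : 0 ≤ D) {K : ℕ} {R S : ℤ} {N : ℕ → ℤ → Finset ℤ}
    (hN : ∀ k < K, ∀ b ∈ cel K S k, ∀ j n, al k j n b → rs k n b → n ∈ N k b)
    (hNK : ∀ j n, al K j n S → n = R)
    (hact : ∀ k < K, ∀ j n b, al k j n b → ¬ rs k n b → act k n b ⊆ act (k + 1) (n / 2) (b / 2))
    (hal : ∀ k < K, ∀ j n b, al k j n b → al (k + 1) (j / 2) (n / 2) (b / 2))
    (hd : ∀ k ≤ K, ∀ j n b, al k j n b → ∀ x ∈ iv k b, ∑ x1 ∈ iv k j, d x1 x ^ 2 ≤ D * 2 ^ k)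
    (I : Finset ℤ) :
    ∑ x1 ∈ I, tb (cz d f x1) (win act al o x0 x1) K S ≤
      17 * D * (2 ^ K * ∑ i ∈ act K R S, ∑ x ∈ iv K S, f i x ^ 2 +
        ∑ k ∈ range K, ∑ b ∈ cel K S k, 2 ^ k * ∑ n ∈ N k b, ∑ i ∈ act k n b,
          ∑ x ∈ iv k b, f i x ^ 2) := by
  unfold tb
  rw [sum_add_distrib, mul_add]
  refine add_le_add ?_ ?_
  · rw [← mul_sum]
    have h := mul_le_mul_of_nonneg_left
      (sum_top_le (act := act) (al := al) (o := o) (x0 := x0) (f := f) hD hNK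
        (fun j n h => hd K le_rfl j n S h) I) (by positivity : (0 : ℝ) ≤ 2 ^ K)
    refine h.trans (le_of_eq ?_)
    ring
  · rw [sum_comm, mul_sum]
    refine sum_le_sum fun k hk => ?_
    rw [mem_range] at hk
    rw [sum_comm, mul_sum]
    refine sum_le_sum fun b hb => ?_
    rw [← mul_sum]
    have h := mul_le_mul_of_nonneg_left
      (sum_birth_le (act := act) (al := al) (o := o) (x0 := x0) (f := f) ho hD
        (fun j n h1 h2 => hN k hk b hb j n h1 h2) (fun j n => hact k hk j n b)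
        (fun j n => hal k hk j n b) (fun j n => hd k hk.le j n b) I)
      (by positivity : (0 : ℝ) ≤ 2 ^ k)
    refine h.trans (le_of_eq ?_)
    ring

end window

/-! ### The frames of one plane -/

section plane

variable {A : ℤ → ℤ → ℝ} {c ξ : ℝ} {us : ℕ → ℤ → ℤ → Prop} {K : ℕ}

theorem act_reset {k : ℕ} {n m : ℤ} (h : rf A c ξ us K k n m = k) :
    act A c ξ us K k n m = cset k n m := by
  unfold act
  rw [h, Nat.sub_self, ix_zero, ix_zero]

/-- the mass of the own second frame of a square -/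
theorem sum_cset_B (hc : 0 ≤ c) (k : ℕ) (n m : ℤ) :
    2 ^ k * ∑ i ∈ cset k n m, ∑ y ∈ iv k m, comB A c i y ^ 2 ≤ E2 (iv k n) (iv k m) A := by
  rw [sum_cset, sum_comm]
  have h1 : ∀ y ∈ iv k m, ∑ x' ∈ iv k n, comB A c (k, x', m) y ^ 2 ≤
      (2 ^ k : ℝ)⁻¹ * ∑ x ∈ iv k n, A x y ^ 2 := by
    intro y hy
    refine le_trans (le_of_eq ?_) (H443.fb_col hc A (n := n) hy)
    exact sum_congr rfl fun x' hx' => by rw [comB_of_mem hy hx']
  refine (mul_le_mul_of_nonneg_left (sum_le_sum h1) (by positivity)).trans (le_of_eq ?_)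
  rw [← mul_sum, ← mul_assoc, mul_inv_cancel₀ (by positivity), one_mul]
  unfold E2
  exact sum_comm

/-- the mass of the own first frame of a square -/
theorem sum_cset_A (hc : 0 ≤ c) (k : ℕ) (n m : ℤ) :
    2 ^ k * ∑ i ∈ cset k n m, ∑ x ∈ iv k n, comA A c i x ^ 2 ≤
      c / 2 * E2 (iv k n) (iv k m) A := by
  rw [sum_cset, sum_comm]
  have h1 : ∀ x ∈ iv k n, ∑ x' ∈ iv k n, comA A c (k, x', m) x ^ 2 ≤
      c / 2 * ((2 ^ k : ℝ)⁻¹ * ∑ y ∈ iv k m, A x y ^ 2) := by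
    intro x hx
    refine le_trans (le_of_eq ?_) (H443.fa_row hc A (m := m) hx)
    exact sum_congr rfl fun x' hx' => by rw [comA_of_mem hx hx']
  refine (mul_le_mul_of_nonneg_left (sum_le_sum h1) (by positivity)).trans (le_of_eq ?_)
  rw [← mul_sum, ← mul_sum]
  unfold E2
  field_simp

/-- the energies of the kernel at the resets -/
theorem sum_reset_E2 (hc : 0 ≤ c) (hξ : 0 < ξ) {Λ : ℝ} (hΛ : 0 ≤ Λ)
    (hA : ∀ k n m, us k n m → E2 (iv k n) (iv k m) A ≤ Λ * 4 ^ k) (R S : ℤ)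
    [∀ k n m, Decidable (rf A c ξ us K k n m = k)] :
    ∑ k ∈ range K, ∑ n ∈ iv (K - k) R, ∑ m ∈ iv (K - k) S,
      (if rf A c ξ us K k n m = k then E2 (iv k n) (iv k m) A else 0) ≤
      Λ / ξ * E2 (iv K R) (iv K S) A := by
  have h1 := rsum_le (A := A) (c := c) (ξ := ξ) (us := us) (K := K) (k := K) (n := R) (m := S)
    (f := fun k n m => (4 ^ k : ℝ)⁻¹ * E2 (iv k n) (iv k m) A) (M := Λ)
    fun j hj a _ b _ hr => by
      rw [inv_mul_le_iff₀ (by positivity), mul_comm]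
      exact hA j a b (H97b.us_of_reset hj hr)
  have h2 : Λ * ar A c ξ us K K R S ≤ Λ / ξ * E2 (iv K R) (iv K S) A := by
    have h3 := pack (A := A) (c := c) (ξ := ξ) (us := us) (K := K) hc R S
    rw [div_mul_eq_mul_div, mul_div_assoc]
    refine mul_le_mul_of_nonneg_left ?_ hΛ
    rw [le_div_iff₀ hξ, mul_comm]
    exact h3
  refine le_trans (le_of_eq ?_) (h1.trans h2)
  unfold rsum
  refine sum_congr rfl fun k _ => ?_
  rw [mul_sum]
  refine sum_congr rfl fun n _ => ?_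
  rw [mul_sum]
  refine sum_congr rfl fun m _ => ?_
  split_ifs
  · rw [← mul_assoc, mul_inv_cancel₀ (by positivity), one_mul]
  · rw [mul_zero]

variable {al : ℕ → ℤ → ℤ → ℤ → Prop} {o x0 : ℤ} {d : ℤ → ℤ → ℝ} {D : ℝ}

theorem cel_eq (K : ℕ) (S : ℤ) (k : ℕ) : cel K S k = iv (K - k) S := by
  unfold cel iv
  rw [mul_add, mul_one]

/-- **Root and births, second frames** (tree of the third coordinate), summed over `x1`; the alive
boxes are `al k j n m`: scale, cell of `x1`, cell of `x2`, cell of `x3`. -/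
theorem birthB_le (hc : 0 ≤ c) (hξ : 0 < ξ) {Λ : ℝ} (hΛ : 0 ≤ Λ)
    (hA : ∀ k n m, us k n m → E2 (iv k n) (iv k m) A ≤ Λ * 4 ^ k) (ho : |o| ≤ 1) (hD : 0 ≤ D)
    {R S : ℤ} (hR : ∀ k ≤ K, ∀ j n m, al k j n m → n ∈ iv (K - k) R)
    (hal : ∀ k < K, ∀ j n m, al k j n m → al (k + 1) (j / 2) (n / 2) (m / 2))
    (hd : ∀ k ≤ K, ∀ j n m, al k j n m → ∀ x ∈ iv k m, ∑ x1 ∈ iv k j, d x1 x ^ 2 ≤ D * 2 ^ k)
    (I : Finset ℤ) :
    ∑ x1 ∈ I, tb (cz d (comB A c) x1) (win (act A c ξ us K) al o x0 x1) K S ≤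
      17 * D * ((1 + Λ / ξ) * E2 (iv K R) (iv K S) A) := by
  classical
  refine (sum_tb_le (R := R) (rs := fun k n m => rf A c ξ us K k n m = k)
    (N := fun k m => (iv (K - k) R).filter fun n => rf A c ξ us K k n m = k) ho hD
    (fun k hk m _ j n h1 h2 => mem_filter.2 ⟨hR k hk.le j n m h1, h2⟩)
    (fun j n h => ?_) (fun k hk j n m _ h => (act_inherit hk h).le) hal hd I).trans ?_
  · have := hR K le_rfl j n S h
    rw [Nat.sub_self, mem_iv, ix_zero] at this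
    exact this
  · refine mul_le_mul_of_nonneg_left ?_ (by positivity)
    rw [add_mul, one_mul]
    refine add_le_add ?_ ?_
    · rw [act_top]
      exact sum_cset_B hc K R S
    · refine le_trans ?_ (sum_reset_E2 hc hξ hΛ hA R S)
      refine sum_le_sum fun k _ => ?_
      rw [cel_eq, sum_comm (s := iv (K - k) R)]
      refine sum_le_sum fun m _ => ?_
      rw [sum_filter, mul_sum]
      refine sum_le_sum fun n _ => ?_
      split_ifs with h
      · rw [act_reset h]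
        exact sum_cset_B hc k n m
      · rw [mul_zero]

/-- **Root and births, first frames** (tree of the second coordinate), summed over `x1`. -/
theorem birthA_le (hc : 0 ≤ c) (hξ : 0 < ξ) {Λ : ℝ} (hΛ : 0 ≤ Λ)
    (hA : ∀ k n m, us k n m → E2 (iv k n) (iv k m) A ≤ Λ * 4 ^ k) (ho : |o| ≤ 1) (hD : 0 ≤ D)
    {R S : ℤ} (hS : ∀ k ≤ K, ∀ j n m, al k j n m → m ∈ iv (K - k) S)
    (hal : ∀ k < K, ∀ j n m, al k j n m → al (k + 1) (j / 2) (n / 2) (m / 2))
    (hd : ∀ k ≤ K, ∀ j n m, al k j n m → ∀ x ∈ iv k n, ∑ x1 ∈ iv k j, d x1 x ^ 2 ≤ D * 2 ^ k)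
    (I : Finset ℤ) :
    ∑ x1 ∈ I, tb (cz d (comA A c) x1) (win (fun k m n => act A c ξ us K k n m)
      (fun k j m n => al k j n m) o x0 x1) K R ≤
      17 * D * (c / 2 * ((1 + Λ / ξ) * E2 (iv K R) (iv K S) A)) := by
  classical
  refine (sum_tb_le (act := fun k m n => act A c ξ us K k n m) (R := S)
    (al := fun k j m n => al k j n m) (rs := fun k m n => rf A c ξ us K k n m = k)
    (N := fun k n => (iv (K - k) S).filter fun m => rf A c ξ us K k n m = k) ho hD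
    (fun k hk n _ j m h1 h2 => mem_filter.2 ⟨hS k hk.le j n m h1, h2⟩)
    (fun j m h => ?_) (fun k hk j m n _ h => (act_inherit hk h).le)
    (fun k hk j m n h => hal k hk j n m h) (fun k hk j m n h => hd k hk j n m h) I).trans ?_
  · have := hS K le_rfl j R m h
    rw [Nat.sub_self, mem_iv, ix_zero] at this
    exact this
  · refine mul_le_mul_of_nonneg_left ?_ (by positivity)
    rw [add_mul, one_mul, mul_add]
    refine add_le_add ?_ ?_
    · rw [act_top]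
      exact sum_cset_A hc K R S
    · refine le_trans ?_ (mul_le_mul_of_nonneg_left (sum_reset_E2 hc hξ hΛ hA R S)
        (by positivity : 0 ≤ c / 2))
      rw [mul_sum]
      refine sum_le_sum fun k _ => ?_
      rw [cel_eq, mul_sum]
      refine sum_le_sum fun n _ => ?_
      rw [sum_filter, mul_sum, mul_sum]
      refine sum_le_sum fun m _ => ?_
      split_ifs with h
      · rw [act_reset h]
        exact sum_cset_A hc k n m
      · rw [mul_zero, mul_zero]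

/-- **The dropped mass of the second frames, summed over `x1`.** -/
theorem dropB_le (hc : 0 ≤ c) (hξ : 0 < ξ) {Λ : ℝ} (hΛ : 0 ≤ Λ)
    (hA : ∀ k n m, us k n m → E2 (iv k n) (iv k m) A ≤ Λ * 4 ^ k) (ho : |o| ≤ 1) (hD : 0 ≤ D)
    {R S : ℤ} (hR : ∀ k ≤ K, ∀ j n m, al k j n m → n ∈ iv (K - k) R)
    (hal : ∀ k < K, ∀ j n m, al k j n m → al (k + 1) (j / 2) (n / 2) (m / 2))
    (hd : ∀ k ≤ K, ∀ j n m, al k j n m → ∀ x ∈ iv k m, ∑ x1 ∈ iv k j, d x1 x ^ 2 ≤ D * 2 ^ k)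
    (I : Finset ℤ) :
    ∑ x1 ∈ I, ∑ k ∈ range K, ∑ b ∈ cel K S k,
      2 ^ k * dm (cz d (comB A c) x1) (win (act A c ξ us K) al o x0 x1) k b ≤
      17 * D * ((1 + Λ / ξ) * E2 (iv K R) (iv K S) A) :=
  (sum_le_sum fun _ _ => drop_le_tb _ _ K S).trans
    (birthB_le hc hξ hΛ hA ho hD hR hal hd I)

/-- **The dropped mass of the first frames, summed over `x1`.** -/
theorem dropA_le (hc : 0 ≤ c) (hξ : 0 < ξ) {Λ : ℝ} (hΛ : 0 ≤ Λ)
    (hA : ∀ k n m, us k n m → E2 (iv k n) (iv k m) A ≤ Λ * 4 ^ k) (ho : |o| ≤ 1) (hD : 0 ≤ D)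
    {R S : ℤ} (hS : ∀ k ≤ K, ∀ j n m, al k j n m → m ∈ iv (K - k) S)
    (hal : ∀ k < K, ∀ j n m, al k j n m → al (k + 1) (j / 2) (n / 2) (m / 2))
    (hd : ∀ k ≤ K, ∀ j n m, al k j n m → ∀ x ∈ iv k n, ∑ x1 ∈ iv k j, d x1 x ^ 2 ≤ D * 2 ^ k)
    (I : Finset ℤ) :
    ∑ x1 ∈ I, ∑ k ∈ range K, ∑ b ∈ cel K R k,
      2 ^ k * dm (cz d (comA A c) x1) (win (fun k m n => act A c ξ us K k n m)
        (fun k j m n => al k j n m) o x0 x1) k b ≤
      17 * D * (c / 2 * ((1 + Λ / ξ) * E2 (iv K R) (iv K S) A)) :=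
  (sum_le_sum fun _ _ => drop_le_tb _ _ K R).trans
    (birthA_le hc hξ hΛ hA ho hD hS hal hd I)

end plane

end

end Vale.Agent.P141.H97b
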