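import Vale.Agent.P141.H443.Plane4

/-!
# P141, line W, end lemma (E-FR): rows of the frames, masses at the reset squares

* `fa_row`, `fb_col`: the frames of a square are bounded pointwise by the row and column averages of
  the kernel on this square;
* `mA_le`, `mB_le`, `nuc_le`: the masses of the frames of a reference on a square below it;
* `rf_used`: the reference of a square is a used square;
* `drop_le`, `birth_le`: the total mass of the frames at the reset squares.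
-/

namespace Vale.Agent.P141.H97b

open Finset Vale.Agent.P141.PL Vale.Agent.P141.PL.H317 Vale.Agent.P141.H443

noncomputable section

/-! ### The rows and the columns of the frames -/

/-- the row identity of the minimiser -/
theorem row_id {c : ℝ} {A U : ℤ → ℤ → ℝ} {k : ℕ} {n m : ℤ}
    (hU : ∀ V, fE A c k n m U ≤ fE A c k n m V) {x : ℤ} (hx : x ∈ iv k n) :
    ∑ y ∈ iv k m, A x y * U x y = ∑ y ∈ iv k m, U x y ^ 2 +
      2 * c * (4 ^ k)⁻¹ * ∑ x' ∈ iv k n, Gr (iv k m) U U x x' ^ 2 := by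
  have h2 : ∀ y ∈ iv k m, A x y * U x y = U x y ^ 2 +
      2 * c * (4 ^ k)⁻¹ * (U3 (iv k n) (iv k m) U x y * U x y) := by
    intro y hy
    have := el hU hx hy
    linear_combination U x y * this
  rw [sum_congr rfl h2, sum_add_distrib, ← mul_sum]
  congr 2
  unfold U3
  have h3 : ∀ y, (∑ x' ∈ iv k n, Gr (iv k m) U U x x' * U x' y) * U x y =
      ∑ x' ∈ iv k n, Gr (iv k m) U U x x' * (U x y * U x' y) := by
    intro y
    rw [sum_mul]
    exact sum_congr rfl fun x' _ => by ring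
  simp only [h3]
  rw [sum_comm]
  refine sum_congr rfl fun x' _ => ?_
  rw [← mul_sum, sq]
  rfl

/-- **Rows of the first frame.** -/
theorem fa_row {c : ℝ} (hc : 0 ≤ c) (A : ℤ → ℤ → ℝ) {k : ℕ} {n m : ℤ} {x : ℤ}
    (hx : x ∈ iv k n) :
    ∑ x' ∈ iv k n, fa A c k n m x' x ^ 2 ≤ c / 2 * ((2 ^ k)⁻¹ * ∑ y ∈ iv k m, A x y ^ 2) := by
  unfold fa
  set U := Um A c k n m with hU
  have h1 := row_id (Um_min hc A k n m) hx
  rw [← hU] at h1
  have h2 : ∑ y ∈ iv k m, A x y * U x y ≤ ∑ y ∈ iv k m, U x y ^ 2 +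
      1 / 4 * ∑ y ∈ iv k m, A x y ^ 2 := by
    rw [mul_sum, ← sum_add_distrib]
    exact sum_le_sum fun y _ => by nlinarith [sq_nonneg (A x y - 2 * U x y)]
  have h3 : 2 * c * (4 ^ k)⁻¹ * ∑ x' ∈ iv k n, Gr (iv k m) U U x x' ^ 2 ≤
      1 / 4 * ∑ y ∈ iv k m, A x y ^ 2 := by linarith
  have h4 : (4 : ℝ) ^ k = 2 ^ k * 2 ^ k := by rw [← mul_pow]; norm_num
  have h5 : ∑ x' ∈ iv k n, (2 * c * (4 ^ k : ℝ)⁻¹ * √(2 ^ k) * Gr (iv k m) U U x x') ^ 2 =
      2 * c * (2 ^ k)⁻¹ * (2 * c * (4 ^ k)⁻¹ * ∑ x' ∈ iv k n, Gr (iv k m) U U x x' ^ 2) := by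
    rw [mul_sum, mul_sum]
    refine sum_congr rfl fun x' _ => ?_
    have h6 : (2 * c * (4 ^ k : ℝ)⁻¹ * √(2 ^ k) * Gr (iv k m) U U x x') ^ 2 =
        4 * c ^ 2 * ((4 ^ k : ℝ)⁻¹) ^ 2 * (√(2 ^ k)) ^ 2 * Gr (iv k m) U U x x' ^ 2 := by ring
    rw [h6, Real.sq_sqrt (by positivity), h4]
    field_simp
    ring
  rw [h5]
  have h7 := mul_le_mul_of_nonneg_left h3 (by positivity : 0 ≤ 2 * c * (2 ^ k : ℝ)⁻¹)
  refine h7.trans (le_of_eq ?_)
  ring

/-- **Columns of the second frame.** -/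
theorem fb_col {c : ℝ} (hc : 0 ≤ c) (A : ℤ → ℤ → ℝ) {k : ℕ} {n m : ℤ} {y : ℤ}
    (hy : y ∈ iv k m) :
    ∑ x' ∈ iv k n, fb A c k n m x' y ^ 2 ≤ (2 ^ k)⁻¹ * ∑ x ∈ iv k n, A x y ^ 2 := by
  unfold fb
  have h1 : ∀ x' : ℤ, ((√(2 ^ k : ℝ))⁻¹ * Um A c k n m x' y) ^ 2 =
      (2 ^ k : ℝ)⁻¹ * Um A c k n m x' y ^ 2 := by
    intro x'
    rw [mul_pow, inv_pow, Real.sq_sqrt (by positivity)]
  simp only [h1]
  rw [← mul_sum]
  exact mul_le_mul_of_nonneg_left (col_le hc (Um_min hc A k n m) hy) (by positivity)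

/-! ### The masses on a square -/

/-- the average over `iv k n` of the sum of the squares of the first frame of `(r; a, b)` -/
def mA (A : ℤ → ℤ → ℝ) (c : ℝ) (r : ℕ) (a b : ℤ) (k : ℕ) (n : ℤ) : ℝ :=
  (2 ^ k)⁻¹ * ∑ x ∈ iv k n, ∑ x' ∈ iv r a, fa A c r a b x' x ^ 2

/-- the average over `iv k m` of the sum of the squares of the second frame of `(r; a, b)` -/
def mB (A : ℤ → ℤ → ℝ) (c : ℝ) (r : ℕ) (a b : ℤ) (k : ℕ) (m : ℤ) : ℝ :=
  (2 ^ k)⁻¹ * ∑ y ∈ iv k m, ∑ x' ∈ iv r a, fb A c r a b x' y ^ 2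

/-- the nuclear mass on the square `(k; n, m)` of the frames of `(r; a, b)` -/
def nuc (A : ℤ → ℤ → ℝ) (c : ℝ) (r : ℕ) (a b : ℤ) (k : ℕ) (n m : ℤ) : ℝ :=
  ∑ x' ∈ iv r a, √((2 ^ k)⁻¹ * ∑ x ∈ iv k n, fa A c r a b x' x ^ 2) *
    √((2 ^ k)⁻¹ * ∑ y ∈ iv k m, fb A c r a b x' y ^ 2)

variable {A : ℤ → ℤ → ℝ} {c : ℝ}

theorem mA_nonneg (A : ℤ → ℤ → ℝ) (c : ℝ) (r : ℕ) (a b : ℤ) (k : ℕ) (n : ℤ) :
    0 ≤ mA A c r a b k n :=
  mul_nonneg (by positivity) (sum_nonneg fun _ _ => sum_nonneg fun _ _ => sq_nonneg _)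

theorem mB_nonneg (A : ℤ → ℤ → ℝ) (c : ℝ) (r : ℕ) (a b : ℤ) (k : ℕ) (m : ℤ) :
    0 ≤ mB A c r a b k m :=
  mul_nonneg (by positivity) (sum_nonneg fun _ _ => sum_nonneg fun _ _ => sq_nonneg _)

theorem nuc_nonneg (A : ℤ → ℤ → ℝ) (c : ℝ) (r : ℕ) (a b : ℤ) (k : ℕ) (n m : ℤ) :
    0 ≤ nuc A c r a b k n m :=
  sum_nonneg fun _ _ => mul_nonneg (Real.sqrt_nonneg _) (Real.sqrt_nonneg _)

/-- the mass of the first frame on any smaller interval, through the rows of the kernel -/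
theorem mA_le (hc : 0 ≤ c) {r : ℕ} {a b : ℤ} {k : ℕ} {n : ℤ} (hs : ∀ x ∈ iv k n, x ∈ iv r a) :
    mA A c r a b k n ≤
      c / 2 * ((2 ^ k)⁻¹ * ∑ x ∈ iv k n, (2 ^ r)⁻¹ * ∑ y ∈ iv r b, A x y ^ 2) := by
  unfold mA
  have h1 : ∑ x ∈ iv k n, ∑ x' ∈ iv r a, fa A c r a b x' x ^ 2 ≤
      c / 2 * ∑ x ∈ iv k n, (2 ^ r)⁻¹ * ∑ y ∈ iv r b, A x y ^ 2 := by
    rw [mul_sum]
    exact sum_le_sum fun x hx => fa_row hc A (hs x hx)
  calc _ ≤ (2 ^ k : ℝ)⁻¹ * (c / 2 * ∑ x ∈ iv k n, (2 ^ r)⁻¹ * ∑ y ∈ iv r b, A x y ^ 2) :=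
        mul_le_mul_of_nonneg_left h1 (by positivity)
    _ = _ := by ring

/-- the mass of the second frame on any smaller interval -/
theorem mB_le (hc : 0 ≤ c) {r : ℕ} {a b : ℤ} {k : ℕ} {m : ℤ} (hs : ∀ y ∈ iv k m, y ∈ iv r b) :
    mB A c r a b k m ≤ (2 ^ k)⁻¹ * ∑ y ∈ iv k m, (2 ^ r)⁻¹ * ∑ x ∈ iv r a, A x y ^ 2 := by
  unfold mB
  refine mul_le_mul_of_nonneg_left ?_ (by positivity)
  exact sum_le_sum fun y hy => fb_col hc A (hs y hy)

/-- pointwise rows -/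
theorem mA_le_of_rows (hc : 0 ≤ c) {r : ℕ} {a b : ℤ} {k : ℕ} {n : ℤ}
    (hs : ∀ x ∈ iv k n, x ∈ iv r a) {Λ : ℝ}
    (hA : ∀ x ∈ iv k n, ∑ y ∈ iv r b, A x y ^ 2 ≤ Λ * 2 ^ r) :
    mA A c r a b k n ≤ c / 2 * Λ := by
  refine (mA_le hc hs).trans (mul_le_mul_of_nonneg_left ?_ (by positivity))
  rw [inv_mul_le_iff₀ (by positivity)]
  refine (sum_le_card_nsmul _ _ Λ fun x hx => ?_).trans (le_of_eq ?_)
  · rw [inv_mul_le_iff₀ (by positivity), mul_comm]
    exact hA x hx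
  · rw [card_iv, nsmul_eq_mul]
    push_cast
    rfl

/-- pointwise columns -/
theorem mB_le_of_cols (hc : 0 ≤ c) {r : ℕ} {a b : ℤ} {k : ℕ} {m : ℤ}
    (hs : ∀ y ∈ iv k m, y ∈ iv r b) {Λ : ℝ}
    (hA : ∀ y ∈ iv k m, ∑ x ∈ iv r a, A x y ^ 2 ≤ Λ * 2 ^ r) :
    mB A c r a b k m ≤ Λ := by
  refine (mB_le hc hs).trans ?_
  rw [inv_mul_le_iff₀ (by positivity)]
  refine (sum_le_card_nsmul _ _ Λ fun x hx => ?_).trans (le_of_eq ?_)
  · rw [inv_mul_le_iff₀ (by positivity), mul_comm]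
    exact hA x hx
  · rw [card_iv, nsmul_eq_mul]
    push_cast
    rfl

/-- **The nuclear mass.** -/
theorem nuc_le (A : ℤ → ℤ → ℝ) (c : ℝ) (r : ℕ) (a b : ℤ) (k : ℕ) (n m : ℤ) :
    nuc A c r a b k n m ≤ √(mA A c r a b k n) * √(mB A c r a b k m) := by
  have h := Real.sum_sqrt_mul_sqrt_le (iv r a)
    (f := fun x' => (2 ^ k : ℝ)⁻¹ * ∑ x ∈ iv k n, fa A c r a b x' x ^ 2)
    (g := fun x' => (2 ^ k : ℝ)⁻¹ * ∑ y ∈ iv k m, fb A c r a b x' y ^ 2)
    (fun x' => mul_nonneg (by positivity) (sum_nonneg fun _ _ => sq_nonneg _))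
    (fun x' => mul_nonneg (by positivity) (sum_nonneg fun _ _ => sq_nonneg _))
  refine h.trans (le_of_eq ?_)
  unfold mA mB
  rw [← mul_sum, ← mul_sum, sum_comm (s := iv r a), sum_comm (s := iv r a)]

/-- the masses of the own frames of a square, through the energy of the kernel -/
theorem mA_self (hc : 0 ≤ c) (k : ℕ) (n m : ℤ) :
    mA A c k n m k n ≤ c / 2 * ((4 ^ k)⁻¹ * E2 (iv k n) (iv k m) A) := by
  refine (mA_le hc fun x hx => hx).trans (le_of_eq ?_)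
  have h4 : (4 : ℝ) ^ k = 2 ^ k * 2 ^ k := by rw [← mul_pow]; norm_num
  unfold E2
  rw [← mul_sum, h4, mul_inv]
  ring

theorem mB_self (hc : 0 ≤ c) (k : ℕ) (n m : ℤ) :
    mB A c k n m k m ≤ (4 ^ k)⁻¹ * E2 (iv k n) (iv k m) A := by
  refine (mB_le hc fun x hx => hx).trans (le_of_eq ?_)
  have h4 : (4 : ℝ) ^ k = 2 ^ k * 2 ^ k := by rw [← mul_pow]; norm_num
  unfold E2
  rw [← mul_sum, h4, mul_inv, sum_comm]
  ring

/-- **The nuclear mass of a birth.** -/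
theorem nuc_self (hc : 0 ≤ c) (k : ℕ) (n m : ℤ) :
    nuc A c k n m k n m ≤ √(c / 2) * ((4 ^ k)⁻¹ * E2 (iv k n) (iv k m) A) := by
  have hE : 0 ≤ (4 ^ k : ℝ)⁻¹ * E2 (iv k n) (iv k m) A :=
    mul_nonneg (by positivity) (E2_nonneg _ _ _)
  refine (nuc_le A c k n m k n m).trans ?_
  calc √(mA A c k n m k n) * √(mB A c k n m k m)
      ≤ √(c / 2 * ((4 ^ k)⁻¹ * E2 (iv k n) (iv k m) A)) *
          √((4 ^ k)⁻¹ * E2 (iv k n) (iv k m) A) :=
        mul_le_mul (Real.sqrt_le_sqrt (mA_self hc k n m)) (Real.sqrt_le_sqrt (mB_self hc k n m))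
          (Real.sqrt_nonneg _) (Real.sqrt_nonneg _)
    _ = _ := by
        rw [Real.sqrt_mul (by positivity), mul_assoc, Real.mul_self_sqrt hE]

/-! ### The references -/

variable {ξ : ℝ} {us : ℕ → ℤ → ℤ → Prop} {K : ℕ}

/-- the reset squares are used -/
theorem us_of_reset {k : ℕ} (hk : k < K) {n m : ℤ} (h : rf A c ξ us K k n m = k) : us k n m := by
  classical
  have h2 := rf_step (A := A) (c := c) (ξ := ξ) (us := us) hk n m
  by_contra hnu
  rw [if_neg (fun h => hnu h.1), h] at h2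
  have := (rf_bounds (A := A) (c := c) (ξ := ξ) (us := us)
    (by omega : k + 1 ≤ K) (n / 2) (m / 2)).1
  omega

theorem ix_half (j : ℕ) (n : ℤ) : ix j (n / 2) = ix (j + 1) n := by
  have h := ix_ix 1 j n
  rw [add_comm] at h
  rw [← h]
  congr 1

/-- **The reference of a square below the root is a used square.** -/
theorem rf_used {R S : ℤ} (hR : us K R S) {k : ℕ} (hk : k ≤ K) : ∀ {n m : ℤ},
    ix (K - k) n = R → ix (K - k) m = S →
    us (rf A c ξ us K k n m) (ix (rf A c ξ us K k n m - k) n)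
      (ix (rf A c ξ us K k n m - k) m) := by
  classical
  have key : ∀ d k, k + d = K → ∀ n m, ix (K - k) n = R → ix (K - k) m = S →
      us (rf A c ξ us K k n m) (ix (rf A c ξ us K k n m - k) n)
        (ix (rf A c ξ us K k n m - k) m) := by
    intro d
    induction d with
    | zero =>
      intro k hk n m hn hm
      have : k = K := by omega
      subst this
      rw [rf_top, Nat.sub_self, ix_zero, ix_zero]
      rw [Nat.sub_self, ix_zero] at hn hm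
      rw [hn, hm]
      exact hR
    | succ d ih =>
      intro k hk n m hn hm
      have hkK : k < K := by omega
      have e : K - k = (K - (k + 1)) + 1 := by omega
      have h := ih (k + 1) (by omega) (n / 2) (m / 2)
        (by rw [ix_half, ← e]; exact hn) (by rw [ix_half, ← e]; exact hm)
      by_cases hr : rf A c ξ us K k n m = k
      · rw [hr, Nat.sub_self, ix_zero, ix_zero]
        exact us_of_reset hkK hr
      · rw [rf_inherit hkK n m hr]
        have hb := (rf_bounds (A := A) (c := c) (ξ := ξ) (us := us)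
          (by omega : k + 1 ≤ K) (n / 2) (m / 2)).1
        rw [ix_half, ix_half] at h
        have e2 : rf A c ξ us K (k + 1) (n / 2) (m / 2) - (k + 1) + 1 =
          rf A c ξ us K (k + 1) (n / 2) (m / 2) - k := by omega
        rw [e2] at h
        exact h
  intro n m
  exact key (K - k) k (by omega) n m

theorem mem_iv_up {k r : ℕ} (h : k ≤ r) {n x : ℤ} (hx : x ∈ iv k n) :
    x ∈ iv r (ix (r - k) n) := by
  rw [mem_iv] at hx ⊢
  rw [← hx, ix_ix]
  congr 1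
  omega

/-- the mass of the first frame of the reference of `(k; n, m)` on `iv k n` -/
def rA (A : ℤ → ℤ → ℝ) (c ξ : ℝ) (us : ℕ → ℤ → ℤ → Prop) (K k : ℕ) (n m : ℤ) : ℝ :=
  mA A c (rf A c ξ us K k n m) (ix (rf A c ξ us K k n m - k) n)
    (ix (rf A c ξ us K k n m - k) m) k n

/-- the mass of the second frame of the reference of `(k; n, m)` on `iv k m` -/
def rB (A : ℤ → ℤ → ℝ) (c ξ : ℝ) (us : ℕ → ℤ → ℤ → Prop) (K k : ℕ) (n m : ℤ) : ℝ :=
  mB A c (rf A c ξ us K k n m) (ix (rf A c ξ us K k n m - k) n)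
    (ix (rf A c ξ us K k n m - k) m) k m

/-- the masses on `(k; n, m)` of the frames of the reference of the parent (the dropped ones when
the square is reset) -/
def oA (A : ℤ → ℤ → ℝ) (c ξ : ℝ) (us : ℕ → ℤ → ℤ → Prop) (K k : ℕ) (n m : ℤ) : ℝ :=
  mA A c (rf A c ξ us K (k + 1) (n / 2) (m / 2))
    (ix (rf A c ξ us K (k + 1) (n / 2) (m / 2) - k) n)
    (ix (rf A c ξ us K (k + 1) (n / 2) (m / 2) - k) m) k n

/-- the same for the second frame -/
def oB (A : ℤ → ℤ → ℝ) (c ξ : ℝ) (us : ℕ → ℤ → ℤ → Prop) (K k : ℕ) (n m : ℤ) : ℝ :=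
  mB A c (rf A c ξ us K (k + 1) (n / 2) (m / 2))
    (ix (rf A c ξ us K (k + 1) (n / 2) (m / 2) - k) n)
    (ix (rf A c ξ us K (k + 1) (n / 2) (m / 2) - k) m) k m

/-- the rows on the used squares are bounded -/
def Rows (us : ℕ → ℤ → ℤ → Prop) (A : ℤ → ℤ → ℝ) (Λ : ℝ) : Prop :=
  ∀ k n m, us k n m → ∀ x ∈ iv k n, ∑ y ∈ iv k m, A x y ^ 2 ≤ Λ * 2 ^ k

/-- the columns on the used squares are bounded -/
def Cols (us : ℕ → ℤ → ℤ → Prop) (A : ℤ → ℤ → ℝ) (Λ : ℝ) : Prop :=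
  ∀ k n m, us k n m → ∀ y ∈ iv k m, ∑ x ∈ iv k n, A x y ^ 2 ≤ Λ * 2 ^ k

theorem rA_le (hc : 0 ≤ c) {Λ : ℝ} (hA : Rows us A Λ) {R S : ℤ} (hR : us K R S) {k : ℕ}
    (hk : k ≤ K) {n m : ℤ} (hn : ix (K - k) n = R) (hm : ix (K - k) m = S) :
    rA A c ξ us K k n m ≤ c / 2 * Λ := by
  have hb := (rf_bounds (A := A) (c := c) (ξ := ξ) (us := us) hk n m).1
  exact mA_le_of_rows hc (fun x hx => mem_iv_up hb hx) fun x hx =>
    hA _ _ _ (rf_used hR hk hn hm) x (mem_iv_up hb hx)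

theorem rB_le (hc : 0 ≤ c) {Λ : ℝ} (hA : Cols us A Λ) {R S : ℤ} (hR : us K R S) {k : ℕ}
    (hk : k ≤ K) {n m : ℤ} (hn : ix (K - k) n = R) (hm : ix (K - k) m = S) :
    rB A c ξ us K k n m ≤ Λ := by
  have hb := (rf_bounds (A := A) (c := c) (ξ := ξ) (us := us) hk n m).1
  exact mB_le_of_cols hc (fun x hx => mem_iv_up hb hx) fun x hx =>
    hA _ _ _ (rf_used hR hk hn hm) x (mem_iv_up hb hx)

/-- the reference of the parent is used, seen from the child -/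
theorem rf_used_parent {R S : ℤ} (hR : us K R S) {k : ℕ} (hk : k < K) {n m : ℤ}
    (hn : ix (K - k) n = R) (hm : ix (K - k) m = S) :
    us (rf A c ξ us K (k + 1) (n / 2) (m / 2))
      (ix (rf A c ξ us K (k + 1) (n / 2) (m / 2) - k) n)
      (ix (rf A c ξ us K (k + 1) (n / 2) (m / 2) - k) m) := by
  have e : K - k = (K - (k + 1)) + 1 := by omega
  have h := rf_used (A := A) (c := c) (ξ := ξ) hR (by omega : k + 1 ≤ K) (n := n / 2)
    (m := m / 2) (by rw [ix_half, ← e]; exact hn) (by rw [ix_half, ← e]; exact hm)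
  have hb := (rf_bounds (A := A) (c := c) (ξ := ξ) (us := us)
    (by omega : k + 1 ≤ K) (n / 2) (m / 2)).1
  rw [ix_half, ix_half] at h
  have e2 : rf A c ξ us K (k + 1) (n / 2) (m / 2) - (k + 1) + 1 =
    rf A c ξ us K (k + 1) (n / 2) (m / 2) - k := by omega
  rw [e2] at h
  exact h

theorem oA_le (hc : 0 ≤ c) {Λ : ℝ} (hA : Rows us A Λ) {R S : ℤ} (hR : us K R S) {k : ℕ}
    (hk : k < K) {n m : ℤ} (hn : ix (K - k) n = R) (hm : ix (K - k) m = S) :
    oA A c ξ us K k n m ≤ c / 2 * Λ := by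
  have hb := (rf_bounds (A := A) (c := c) (ξ := ξ) (us := us)
    (by omega : k + 1 ≤ K) (n / 2) (m / 2)).1
  have hb' : k ≤ rf A c ξ us K (k + 1) (n / 2) (m / 2) := by omega
  exact mA_le_of_rows hc (fun x hx => mem_iv_up hb' hx) fun x hx =>
    hA _ _ _ (rf_used_parent hR hk hn hm) x (mem_iv_up hb' hx)

theorem oB_le (hc : 0 ≤ c) {Λ : ℝ} (hA : Cols us A Λ) {R S : ℤ} (hR : us K R S) {k : ℕ}
    (hk : k < K) {n m : ℤ} (hn : ix (K - k) n = R) (hm : ix (K - k) m = S) :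
    oB A c ξ us K k n m ≤ Λ := by
  have hb := (rf_bounds (A := A) (c := c) (ξ := ξ) (us := us)
    (by omega : k + 1 ≤ K) (n / 2) (m / 2)).1
  have hb' : k ≤ rf A c ξ us K (k + 1) (n / 2) (m / 2) := by omega
  exact mB_le_of_cols hc (fun x hx => mem_iv_up hb' hx) fun x hx =>
    hA _ _ _ (rf_used_parent hR hk hn hm) x (mem_iv_up hb' hx)

/-! ### The reset squares -/

open Classical in
/-- the sum over the reset squares strictly below `(k; n, m)` of the area times `f` -/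
def rsum (A : ℤ → ℤ → ℝ) (c ξ : ℝ) (us : ℕ → ℤ → ℤ → Prop) (K : ℕ) (f : ℕ → ℤ → ℤ → ℝ)
    (k : ℕ) (n m : ℤ) : ℝ :=
  ∑ j ∈ range k, 4 ^ j * ∑ a ∈ iv (k - j) n, ∑ b ∈ iv (k - j) m,
    if rf A c ξ us K j a b = j then f j a b else 0

/-- **Sums over the reset squares.** -/
theorem rsum_le {k : ℕ} {n m : ℤ} {f : ℕ → ℤ → ℤ → ℝ} {M : ℝ}
    (hf : ∀ j < k, ∀ a ∈ iv (k - j) n, ∀ b ∈ iv (k - j) m, rf A c ξ us K j a b = j → f j a b ≤ M) :
    rsum A c ξ us K f k n m ≤ M * ar A c ξ us K k n m := by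
  classical
  unfold rsum
  rw [ar_eq_sum, mul_sum]
  refine sum_le_sum fun j hj => ?_
  rw [mem_range] at hj
  rw [mul_left_comm]
  refine mul_le_mul_of_nonneg_left ?_ (by positivity)
  rw [mul_sum]
  refine sum_le_sum fun a ha => ?_
  rw [mul_sum]
  refine sum_le_sum fun b hb => ?_
  split_ifs with h
  · rw [mul_one]; exact hf j hj a ha b hb h
  · rw [mul_zero]

/-- **The total mass of the frames at the reset squares**: old and new references. -/
theorem drop_le (hc : 0 ≤ c) (hξ : 0 < ξ) {Λ : ℝ} (hΛ : 0 ≤ Λ) (hr : Rows us A Λ)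
    (hq : Cols us A Λ) {R S : ℤ} (hR : us K R S) :
    rsum A c ξ us K (fun j a b => (oA A c ξ us K j a b + oB A c ξ us K j a b) +
      (rA A c ξ us K j a b + rB A c ξ us K j a b)) K R S ≤
      (c + 2) * Λ * (E2 (iv K R) (iv K S) A / ξ) := by
  have h1 : rsum A c ξ us K (fun j a b => (oA A c ξ us K j a b + oB A c ξ us K j a b) +
      (rA A c ξ us K j a b + rB A c ξ us K j a b)) K R S ≤
      ((c + 2) * Λ) * ar A c ξ us K K R S := by
    refine rsum_le fun j hj a ha b hb _ => ?_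
    rw [mem_iv] at ha hb
    have e1 := oA_le (A := A) (c := c) (ξ := ξ) hc hr hR hj ha hb
    have e2 := oB_le (A := A) (c := c) (ξ := ξ) hc hq hR hj ha hb
    have e3 := rA_le (A := A) (c := c) (ξ := ξ) hc hr hR hj.le ha hb
    have e4 := rB_le (A := A) (c := c) (ξ := ξ) hc hq hR hj.le ha hb
    linarith
  refine h1.trans (mul_le_mul_of_nonneg_left ?_ (by positivity))
  rw [le_div_iff₀ hξ, mul_comm]
  exact pack hc R S

/-- **The nuclear mass of the births at the reset squares**, energies only. -/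
theorem birth_le (hc : 0 ≤ c) (hξ : 0 < ξ) {Λ : ℝ} (hΛ : 0 ≤ Λ)
    (hA : ∀ k n m, us k n m → E2 (iv k n) (iv k m) A ≤ Λ * 4 ^ k) {R S : ℤ} :
    rsum A c ξ us K (fun j a b => nuc A c j a b j a b) K R S ≤
      √(c / 2) * Λ * (E2 (iv K R) (iv K S) A / ξ) := by
  have h1 : rsum A c ξ us K (fun j a b => nuc A c j a b j a b) K R S ≤
      (√(c / 2) * Λ) * ar A c ξ us K K R S := by
    refine rsum_le fun j hj a ha b hb h => ?_
    have hu := us_of_reset hj h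
    refine (nuc_self hc j a b).trans (mul_le_mul_of_nonneg_left ?_ (Real.sqrt_nonneg _))
    rw [inv_mul_le_iff₀ (by positivity), mul_comm]
    exact hA j a b hu
  refine h1.trans (mul_le_mul_of_nonneg_left ?_ (by positivity))
  rw [le_div_iff₀ hξ, mul_comm]
  exact pack hc R S

/-- The same on every used square. -/
theorem drop_loc (hc : 0 ≤ c) (hξ : 0 < ξ) {Λ : ℝ} (hΛ : 0 ≤ Λ) (hr : Rows us A Λ)
    (hq : Cols us A Λ) {R S : ℤ} (hR : us K R S) {k : ℕ} (hk : k ≤ K) {n m : ℤ}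
    (hn : ix (K - k) n = R) (hm : ix (K - k) m = S) (hu : us k n m) :
    rsum A c ξ us K (fun j a b => (oA A c ξ us K j a b + oB A c ξ us K j a b) +
      (rA A c ξ us K j a b + rB A c ξ us K j a b)) k n m ≤
      (c + 2) * Λ * (2 * E2 (iv k n) (iv k m) A / ξ + 2 * 4 ^ k) := by
  have h1 : rsum A c ξ us K (fun j a b => (oA A c ξ us K j a b + oB A c ξ us K j a b) +
      (rA A c ξ us K j a b + rB A c ξ us K j a b)) k n m ≤
      ((c + 2) * Λ) * ar A c ξ us K k n m := by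
    refine rsum_le fun j hj a ha b hb _ => ?_
    rw [mem_iv] at ha hb
    have ha' : ix (K - j) a = R := by
      rw [← hn, ← ha, ix_ix]; congr 1; omega
    have hb' : ix (K - j) b = S := by
      rw [← hm, ← hb, ix_ix]; congr 1; omega
    have hjK : j < K := by omega
    have e1 := oA_le (A := A) (c := c) (ξ := ξ) hc hr hR hjK ha' hb'
    have e2 := oB_le (A := A) (c := c) (ξ := ξ) hc hq hR hjK ha' hb'
    have e3 := rA_le (A := A) (c := c) (ξ := ξ) hc hr hR hjK.le ha' hb'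
    have e4 := rB_le (A := A) (c := c) (ξ := ξ) hc hq hR hjK.le ha' hb'
    linarith
  refine h1.trans (mul_le_mul_of_nonneg_left ?_ (by positivity))
  have h2 := pack_loc (A := A) (c := c) (ξ := ξ) (us := us) hc hξ hk hu
  have h3 : ar A c ξ us K k n m ≤ (2 * E2 (iv k n) (iv k m) A + 2 * ξ * 4 ^ k) / ξ := by
    rw [le_div_iff₀ hξ, mul_comm]
    exact h2
  refine h3.trans (le_of_eq ?_)
  field_simp

end

end Vale.Agent.P141.H97b
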